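import Mathlib

/-!
# Counting with a perfect pairing over a finite field
-/

namespace Vale.Agent.P291.N3

variable {k : Type*} [Field k] [Finite k]

/-- `#{y | ⟨y, L m⟩ = 0 for all m} * #M₁ = #ker L * #M₃` for a perfect pairing of `M₃` and `M₂`
and a linear map `L : M₁ → M₂`. -/
theorem card_perp {M₁ M₂ M₃ : Type*} [AddCommGroup M₁] [Module k M₁] [AddCommGroup M₂] [Module k M₂]
    [AddCommGroup M₃] [Module k M₃] [Module.Finite k M₁] [Module.Finite k M₂] [Module.Finite k M₃]
    (β : M₃ →ₗ[k] Module.Dual k M₂) (hβ : Function.Bijective β) (L : M₁ →ₗ[k] M₂) :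
    Nat.card {y : M₃ // ∀ m, β y (L m) = 0} * Nat.card M₁
      = Nat.card {m : M₁ // L m = 0} * Nat.card M₃ := by
  have e1 : Nat.card {y : M₃ // ∀ m, β y (L m) = 0}
      = Nat.card (LinearMap.range L).dualAnnihilator := by
    refine Nat.card_congr ((LinearEquiv.ofBijective β hβ).toEquiv.subtypeEquiv ?_)
    intro y
    simp only [Submodule.mem_dualAnnihilator, LinearMap.mem_range, forall_exists_index,
      forall_apply_eq_imp_iff]
    rfl
  have e2 : Nat.card {m : M₁ // L m = 0} = Nat.card (LinearMap.ker L) := by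
    refine Nat.card_congr (Equiv.subtypeEquivRight ?_)
    intro m
    exact LinearMap.mem_ker.symm
  have e3 : Module.finrank k M₃ = Module.finrank k M₂ := by
    rw [(LinearEquiv.ofBijective β hβ).finrank_eq, Subspace.dual_finrank_eq]
  have e4 := Subspace.finrank_add_finrank_dualAnnihilator_eq (LinearMap.range L)
  have e5 := LinearMap.finrank_range_add_finrank_ker L
  rw [e1, e2, Module.natCard_eq_pow_finrank (K := k) (V := M₁),
    Module.natCard_eq_pow_finrank (K := k) (V := M₃),
    Module.natCard_eq_pow_finrank (K := k) (V := (LinearMap.range L).dualAnnihilator),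
    Module.natCard_eq_pow_finrank (K := k) (V := LinearMap.ker L), ← pow_add, ← pow_add]
  congr 1
  omega

end Vale.Agent.P291.N3
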