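import Mathlib
import Vale.Agent.P291.H415.N3.Dual

/-!
# Representations of the doubled framed quiver over a field, moment map, stability

`V j`, `j : Option I`, are vector spaces, `V none` is the framing space.  The gauge group acts on
`V (some i)`, `i : I`, only.
-/

namespace Vale.Agent.P291.N3

/-- A quiver with framing lines: `tgt a = none` for a framing line. -/
structure Qv (I E : Type*) where
  /-- source -/
  src : E → I
  /-- target, `none` for framing lines -/
  tgt : E → Option I

section defs

variable (k : Type*) [Field k] {I E : Type*} (Q : Qv I E)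
variable (V : Option I → Type*) [∀ j, AddCommGroup (V j)] [∀ j, Module k (V j)]

/-- The representation space `N`. -/
abbrev Rep := ∀ a : E, V (some (Q.src a)) →ₗ[k] V (Q.tgt a)

/-- The dual space of `N`. -/
abbrev Red := ∀ a : E, V (Q.tgt a) →ₗ[k] V (some (Q.src a))

/-- The Lie algebra of the gauge group. -/
abbrev Lie := ∀ i : I, V (some i) →ₗ[k] V (some i)

variable {k Q V}

/-- extension of an element of the Lie algebra by zero on the framing space -/
def ex (ξ : Lie k V) : ∀ j, V j →ₗ[k] V j
  | none => 0
  | some i => ξ i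

@[simp] theorem ex_none (ξ : Lie k V) : ex ξ none = 0 := rfl
@[simp] theorem ex_some (ξ : Lie k V) (i : I) : ex ξ (some i) = ξ i := rfl

/-- The infinitesimal action of the gauge Lie algebra on `N`. -/
def dot (ξ : Lie k V) (x : Rep k Q V) : Rep k Q V :=
  fun a => ex ξ (Q.tgt a) ∘ₗ x a - x a ∘ₗ ξ (Q.src a)

/-- The pairing of `N^*` and `N`. -/
noncomputable def pair [Fintype E] (y : Red k Q V) (x : Rep k Q V) : k :=
  ∑ a, LinearMap.trace k _ (y a ∘ₗ x a)

/-- The moment map equation `μ(x,y) = 0`, where `⟨μ(x,y),ξ⟩ = ⟨y, ξ x⟩`. -/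
def MuZero [Fintype E] (x : Rep k Q V) (y : Red k Q V) : Prop :=
  ∀ ξ : Lie k V, pair y (dot ξ x) = 0

/-- Invariant graded subspaces of the kernel of the framing maps. -/
def Inv (x : Rep k Q V) (y : Red k Q V) (U : ∀ j, Submodule k (V j)) : Prop :=
  U none = ⊥ ∧ (∀ a, ∀ u ∈ U (some (Q.src a)), x a u ∈ U (Q.tgt a)) ∧
    ∀ a, ∀ u ∈ U (Q.tgt a), y a u ∈ U (some (Q.src a))

/-- Stability: no nonzero invariant graded subspace of the kernel of the framing maps. -/
def Stable (x : Rep k Q V) (y : Red k Q V) : Prop := ∀ U, Inv x y U → ∀ j, U j = ⊥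

end defs

section pairing

variable {k : Type*} [Field k] {I E : Type*} [Fintype E] {Q : Qv I E}
variable {V : Option I → Type*} [∀ j, AddCommGroup (V j)] [∀ j, Module k (V j)]

/-- the pairing as a linear map -/
noncomputable def pairL : Red k Q V →ₗ[k] Module.Dual k (Rep k Q V) :=
  LinearMap.mk₂ k pair
    (by intro y y' x; simp [pair, LinearMap.add_comp, Finset.sum_add_distrib])
    (by intro c y x; simp [pair, LinearMap.smul_comp, Finset.mul_sum])
    (by intro y x x'; simp [pair, LinearMap.comp_add, Finset.sum_add_distrib])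
    (by intro c y x; simp [pair, LinearMap.comp_smul, Finset.mul_sum])

theorem pairL_apply (y : Red k Q V) (x : Rep k Q V) : pairL y x = pair y x := rfl

theorem eq_zero_of_trace {W W' : Type*} [AddCommGroup W] [Module k W] [AddCommGroup W']
    [Module k W'] [Module.Finite k W] [Module.Finite k W'] (g : W' →ₗ[k] W)
    (h : ∀ f : W →ₗ[k] W', LinearMap.trace k _ (g ∘ₗ f) = 0) : g = 0 := by
  ext w
  rw [LinearMap.zero_apply, ← Module.forall_dual_apply_eq_zero_iff k]
  intro f
  have h1 := h (f.smulRight w)
  have h2 : g ∘ₗ f.smulRight w = f.smulRight (g w) := by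
    ext v; simp
  rw [h2, LinearMap.trace_smulRight] at h1
  exact h1

variable [∀ j, Module.Finite k (V j)]

theorem pairL_bijective [DecidableEq E] : Function.Bijective (pairL (Q := Q) (V := V) (k := k)) := by
  have hinj : Function.Injective (pairL (Q := Q) (V := V) (k := k)) := by
    rw [injective_iff_map_eq_zero]
    intro y hy
    funext a
    apply eq_zero_of_trace
    intro f
    have h1 : pair y (Pi.single a f : Rep k Q V) = 0 := by
      rw [← pairL_apply, hy]; rfl
    unfold pair at h1
    rw [Finset.sum_eq_single a] at h1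
    · simpa using h1
    · intro b _ hb
      rw [Pi.single_eq_of_ne hb, LinearMap.comp_zero, map_zero]
    · intro h; exact absurd (Finset.mem_univ _) h
  have hfr : Module.finrank k (Red k Q V) = Module.finrank k (Module.Dual k (Rep k Q V)) := by
    rw [Subspace.dual_finrank_eq, Module.finrank_pi_fintype, Module.finrank_pi_fintype]
    refine Finset.sum_congr rfl fun a _ => ?_
    rw [Module.finrank_linearMap, Module.finrank_linearMap, mul_comm]
  exact ⟨hinj, (LinearMap.injective_iff_surjective_of_finrank_eq_finrank hfr).1 hinj⟩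

end pairing

section count

variable {k : Type*} [Field k] [Finite k] {I E : Type*} [Fintype E] [Fintype I] {Q : Qv I E}
variable {V : Option I → Type*} [∀ j, AddCommGroup (V j)] [∀ j, Module k (V j)]
  [∀ j, Module.Finite k (V j)]

/-- the infinitesimal action as a linear map -/
def dotL (x : Rep k Q V) : Lie k V →ₗ[k] Rep k Q V where
  toFun ξ := dot ξ x
  map_add' := by
    intro ξ ξ'
    funext a
    have h : ∀ j, ex (ξ + ξ') j = ex ξ j + ex ξ' j := by
      rintro (_ | i)
      · simp
      · rfl
    simp only [dot, h, LinearMap.add_comp, Pi.add_apply, LinearMap.comp_add]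
    abel
  map_smul' := by
    intro c ξ
    funext a
    have h : ∀ j, ex (c • ξ) j = c • ex ξ j := by
      rintro (_ | i)
      · simp
      · rfl
    simp only [dot, h, LinearMap.smul_comp, Pi.smul_apply, LinearMap.comp_smul, smul_sub,
      RingHom.id_apply]

theorem finite_of_module (W : Type*) [AddCommGroup W] [Module k W] [Module.Finite k W] :
    Finite W := Module.finite_of_finite k

theorem card_muZero : Nat.card {p : Rep k Q V × Red k Q V // MuZero p.1 p.2}
      * Nat.card (Lie k V)
    = Nat.card {p : Rep k Q V × Lie k V // dot p.2 p.1 = 0} * Nat.card (Red k Q V) := by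
  classical
  have : Finite (Rep k Q V) := finite_of_module (k := k) _
  have : Finite (Red k Q V) := finite_of_module (k := k) _
  have : Finite (Lie k V) := finite_of_module (k := k) _
  have : Fintype (Rep k Q V) := Fintype.ofFinite _
  rw [Nat.card_congr (Equiv.subtypeProdEquivSigmaSubtype
      (fun (x : Rep k Q V) (y : Red k Q V) => MuZero x y)), Nat.card_sigma,
    Nat.card_congr (Equiv.subtypeProdEquivSigmaSubtype
      (fun (x : Rep k Q V) (ξ : Lie k V) => dot ξ x = 0)), Nat.card_sigma,
    Finset.sum_mul, Finset.sum_mul]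
  refine Finset.sum_congr rfl fun x _ => ?_
  exact card_perp (k := k) pairL pairL_bijective (dotL x)

end count

end Vale.Agent.P291.N3
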