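import Mathlib
import Vale.Agent.P291.H415.N3.Defs

/-!
# Transport along families of linear isomorphisms
-/

namespace Vale.Agent.P291.N3

set_option linter.unusedSectionVars false

variable {k : Type*} [Field k] {I E : Type*} [Fintype E] {Q : Qv I E}
variable {V V' : Option I → Type*} [∀ j, AddCommGroup (V j)] [∀ j, Module k (V j)]
  [∀ j, AddCommGroup (V' j)] [∀ j, Module k (V' j)]

/-- transport of representations -/
def repE (φ : ∀ j, V j ≃ₗ[k] V' j) : Rep k Q V ≃ Rep k Q V' :=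
  Equiv.piCongrRight fun _ => (LinearEquiv.arrowCongr (φ _) (φ _)).toEquiv

/-- transport of dual representations -/
def redE (φ : ∀ j, V j ≃ₗ[k] V' j) : Red k Q V ≃ Red k Q V' :=
  Equiv.piCongrRight fun _ => (LinearEquiv.arrowCongr (φ _) (φ _)).toEquiv

/-- transport of Lie algebra elements -/
def lieE (φ : ∀ j, V j ≃ₗ[k] V' j) : Lie k V ≃ Lie k V' :=
  Equiv.piCongrRight fun _ => (LinearEquiv.arrowCongr (φ _) (φ _)).toEquiv

theorem repE_apply (φ : ∀ j, V j ≃ₗ[k] V' j) (x : Rep k Q V) (a : E) :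
    repE φ x a = (φ _).toLinearMap ∘ₗ x a ∘ₗ (φ _).symm.toLinearMap := rfl

theorem redE_apply (φ : ∀ j, V j ≃ₗ[k] V' j) (y : Red k Q V) (a : E) :
    redE φ y a = (φ _).toLinearMap ∘ₗ y a ∘ₗ (φ _).symm.toLinearMap := rfl

theorem lieE_apply (φ : ∀ j, V j ≃ₗ[k] V' j) (ξ : Lie k V) (i : I) :
    lieE φ ξ i = (φ _).toLinearMap ∘ₗ ξ i ∘ₗ (φ _).symm.toLinearMap := rfl

theorem ex_lieE (φ : ∀ j, V j ≃ₗ[k] V' j) (ξ : Lie k V) (j : Option I) :
    ex (lieE φ ξ) j = (φ _).toLinearMap ∘ₗ ex ξ j ∘ₗ (φ _).symm.toLinearMap := by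
  rcases j with _ | i
  · simp
  · rfl

theorem dot_lieE (φ : ∀ j, V j ≃ₗ[k] V' j) (ξ : Lie k V) (x : Rep k Q V) :
    dot (lieE φ ξ) (repE φ x) = repE φ (dot ξ x) := by
  funext a
  ext v
  simp [dot, ex_lieE, repE_apply, lieE_apply]

theorem pair_redE [∀ j, Module.Finite k (V j)] [∀ j, Module.Finite k (V' j)]
    (φ : ∀ j, V j ≃ₗ[k] V' j) (y : Red k Q V) (x : Rep k Q V) :
    pair (redE φ y) (repE φ x) = pair y x := by
  unfold pair
  refine Finset.sum_congr rfl fun a _ => ?_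
  have : redE φ y a ∘ₗ repE φ x a
      = (φ _).conj (y a ∘ₗ x a) := by
    ext v
    simp [redE_apply, repE_apply, LinearEquiv.conj_apply]
  rw [this, LinearMap.trace_conj']

theorem muZero_transport [∀ j, Module.Finite k (V j)] [∀ j, Module.Finite k (V' j)]
    (φ : ∀ j, V j ≃ₗ[k] V' j) (x : Rep k Q V) (y : Red k Q V) :
    MuZero (repE φ x) (redE φ y) ↔ MuZero x y := by
  unfold MuZero
  rw [← (lieE φ).forall_congr_right]
  refine forall_congr' fun ξ => ?_
  rw [dot_lieE, pair_redE]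

theorem inv_transport (φ : ∀ j, V j ≃ₗ[k] V' j) (x : Rep k Q V) (y : Red k Q V)
    (U : ∀ j, Submodule k (V j)) (h : Inv x y U) :
    Inv (repE φ x) (redE φ y) (fun j => (U j).map (φ j).toLinearMap) := by
  obtain ⟨h1, h2, h3⟩ := h
  refine ⟨?_, ?_, ?_⟩
  · show (U none).map _ = ⊥
    rw [h1, Submodule.map_bot]
  · rintro a _ ⟨u, hu, rfl⟩
    refine ⟨x a u, h2 a u hu, ?_⟩
    simp [repE_apply]
  · rintro a _ ⟨u, hu, rfl⟩
    refine ⟨y a u, h3 a u hu, ?_⟩
    simp [redE_apply]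

theorem repE_symm (φ : ∀ j, V j ≃ₗ[k] V' j) (x : Rep k Q V) :
    repE (fun j => (φ j).symm) (repE φ x) = x := by
  funext a; ext v; simp [repE_apply]

theorem redE_symm (φ : ∀ j, V j ≃ₗ[k] V' j) (y : Red k Q V) :
    redE (fun j => (φ j).symm) (redE φ y) = y := by
  funext a; ext v; simp [redE_apply]

theorem repE_symm' (φ : ∀ j, V j ≃ₗ[k] V' j) (x : Rep k Q V') :
    repE φ (repE (fun j => (φ j).symm) x) = x := by
  funext a; ext v; simp [repE_apply]

theorem redE_symm' (φ : ∀ j, V j ≃ₗ[k] V' j) (y : Red k Q V') :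
    redE φ (redE (fun j => (φ j).symm) y) = y := by
  funext a; ext v; simp [redE_apply]

theorem stable_transport_aux (φ : ∀ j, V j ≃ₗ[k] V' j) (x : Rep k Q V) (y : Red k Q V)
    (h : Stable (repE φ x) (redE φ y)) : Stable x y := by
  intro U hU j
  have h1 := h _ (inv_transport φ x y U hU) j
  rw [eq_bot_iff]
  intro u hu
  have h2 : (φ j) u ∈ (U j).map (φ j).toLinearMap := ⟨u, hu, rfl⟩
  rw [h1, Submodule.mem_bot] at h2
  rw [Submodule.mem_bot]
  simpa using h2

theorem stable_transport (φ : ∀ j, V j ≃ₗ[k] V' j) (x : Rep k Q V) (y : Red k Q V) :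
    Stable (repE φ x) (redE φ y) ↔ Stable x y := by
  refine ⟨stable_transport_aux φ x y, fun h => ?_⟩
  apply stable_transport_aux (fun j => (φ j).symm)
  rwa [repE_symm, redE_symm]

/-- the largest invariant graded subspace in the kernel of the framing maps -/
noncomputable def umax (x : Rep k Q V) (y : Red k Q V) (j : Option I) : Submodule k (V j) :=
  ⨆ U : {U : ∀ j, Submodule k (V j) // Inv x y U}, U.1 j

theorem le_umax {x : Rep k Q V} {y : Red k Q V} {U : ∀ j, Submodule k (V j)} (h : Inv x y U)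
    (j : Option I) : U j ≤ umax x y j :=
  le_iSup (fun U : {U : ∀ j, Submodule k (V j) // Inv x y U} => U.1 j) ⟨U, h⟩

theorem umax_inv (x : Rep k Q V) (y : Red k Q V) : Inv x y (umax x y) := by
  refine ⟨?_, ?_, ?_⟩
  · unfold umax
    rw [eq_bot_iff]
    apply iSup_le
    intro U
    rw [U.2.1]
  · intro a
    have : umax x y (some (Q.src a)) ≤ (umax x y (Q.tgt a)).comap (x a) := by
      apply iSup_le
      intro U u hu
      exact le_umax U.2 _ (U.2.2.1 a u hu)
    exact fun u hu => this hu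
  · intro a
    have : umax x y (Q.tgt a) ≤ (umax x y (some (Q.src a))).comap (y a) := by
      apply iSup_le
      intro U u hu
      exact le_umax U.2 _ (U.2.2.2 a u hu)
    exact fun u hu => this hu

theorem umax_transport_le (φ : ∀ j, V j ≃ₗ[k] V' j) (x : Rep k Q V) (y : Red k Q V)
    (j : Option I) :
    (umax x y j).map (φ j).toLinearMap ≤ umax (repE φ x) (redE φ y) j :=
  le_umax (inv_transport φ x y _ (umax_inv x y)) j

theorem umax_transport (φ : ∀ j, V j ≃ₗ[k] V' j) (x : Rep k Q V) (y : Red k Q V)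
    (j : Option I) :
    umax (repE φ x) (redE φ y) j = (umax x y j).map (φ j).toLinearMap := by
  apply le_antisymm _ (umax_transport_le φ x y j)
  have h := umax_transport_le (fun j => (φ j).symm) (repE φ x) (redE φ y) j
  rw [repE_symm, redE_symm] at h
  intro u hu
  refine ⟨(φ j).symm u, h ⟨u, hu, rfl⟩, ?_⟩
  simp

end Vale.Agent.P291.N3
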