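import Mathlib
import Vale.Agent.P291.H415.N3.Transport

/-!
# Block decomposition
-/

namespace Vale.Agent.P291.N3

set_option linter.unusedSectionVars false

open LinearMap

variable {k : Type*} [Field k]

section trace

variable {A B A' B' : Type*} [AddCommGroup A] [Module k A] [AddCommGroup B] [Module k B]
  [AddCommGroup A'] [Module k A'] [AddCommGroup B'] [Module k B']
  [Module.Finite k A] [Module.Finite k B] [Module.Finite k A'] [Module.Finite k B']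

theorem trace_block (f : A × B →ₗ[k] A × B) :
    trace k _ f = trace k _ (fst k A B ∘ₗ f ∘ₗ inl k A B) + trace k _ (snd k A B ∘ₗ f ∘ₗ inr k A B) := by
  have h : f = inl k A B ∘ₗ (fst k A B ∘ₗ f) + inr k A B ∘ₗ (snd k A B ∘ₗ f) := by
    ext v <;> simp
  conv_lhs => rw [h]
  rw [map_add, trace_comp_comm', trace_comp_comm' (snd k A B ∘ₗ f)]
  rfl

/-- upper triangular map -/
def up (x11 : A →ₗ[k] A') (x12 : B →ₗ[k] A') (x22 : B →ₗ[k] B') : A × B →ₗ[k] A' × B' :=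
  (x11.coprod x12).prod (x22 ∘ₗ snd k A B)

@[simp] theorem up_apply (x11 : A →ₗ[k] A') (x12 : B →ₗ[k] A') (x22 : B →ₗ[k] B') (v : A × B) :
    up x11 x12 x22 v = (x11 v.1 + x12 v.2, x22 v.2) := rfl

theorem trace_up (x11 : A →ₗ[k] A') (x12 : B →ₗ[k] A') (x22 : B →ₗ[k] B')
    (y11 : A' →ₗ[k] A) (y12 : B' →ₗ[k] A) (y22 : B' →ₗ[k] B)
    (ξ : A × B →ₗ[k] A × B) (η : A' × B' →ₗ[k] A' × B') :
    trace k _ (up y11 y12 y22 ∘ₗ (η ∘ₗ up x11 x12 x22 - up x11 x12 x22 ∘ₗ ξ))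
      = trace k _ (y11 ∘ₗ ((fst k _ _ ∘ₗ η ∘ₗ inl k _ _) ∘ₗ x11
          - x11 ∘ₗ (fst k _ _ ∘ₗ ξ ∘ₗ inl k _ _)))
        + trace k _ (y22 ∘ₗ ((snd k _ _ ∘ₗ η ∘ₗ inr k _ _) ∘ₗ x22
          - x22 ∘ₗ (snd k _ _ ∘ₗ ξ ∘ₗ inr k _ _)))
        + (trace k _ (x12 ∘ₗ (y22 ∘ₗ (snd k _ _ ∘ₗ η ∘ₗ inl k _ _)
            - (snd k _ _ ∘ₗ ξ ∘ₗ inl k _ _) ∘ₗ y11))
          + trace k _ (y12 ∘ₗ ((snd k _ _ ∘ₗ η ∘ₗ inl k _ _) ∘ₗ x11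
            - x22 ∘ₗ (snd k _ _ ∘ₗ ξ ∘ₗ inl k _ _)))) := by
  rw [trace_block]
  set ξ11 := fst k _ _ ∘ₗ ξ ∘ₗ inl k _ _ with h1
  set ξ21 := snd k _ _ ∘ₗ ξ ∘ₗ inl k _ _ with h2
  set ξ22 := snd k _ _ ∘ₗ ξ ∘ₗ inr k _ _ with h3
  set η11 := fst k _ _ ∘ₗ η ∘ₗ inl k _ _ with h4
  set η21 := snd k _ _ ∘ₗ η ∘ₗ inl k _ _ with h5
  set η22 := snd k _ _ ∘ₗ η ∘ₗ inr k _ _ with h6
  have e1 : fst k _ _ ∘ₗ (up y11 y12 y22 ∘ₗ (η ∘ₗ up x11 x12 x22 - up x11 x12 x22 ∘ₗ ξ))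
      ∘ₗ inl k _ _ = y11 ∘ₗ (η11 ∘ₗ x11 - x11 ∘ₗ ξ11) - y11 ∘ₗ (x12 ∘ₗ ξ21)
        + y12 ∘ₗ (η21 ∘ₗ x11 - x22 ∘ₗ ξ21) := by
    ext v
    simp [h1, h2, h4, h5]
    abel
  have e2 : snd k _ _ ∘ₗ (up y11 y12 y22 ∘ₗ (η ∘ₗ up x11 x12 x22 - up x11 x12 x22 ∘ₗ ξ))
      ∘ₗ inr k _ _ = y22 ∘ₗ (η22 ∘ₗ x22 - x22 ∘ₗ ξ22) + y22 ∘ₗ (η21 ∘ₗ x12) := by
    ext v
    have h7 : η (x12 v, x22 v) = η (x12 v, 0) + η (0, x22 v) := by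
      rw [← map_add]; simp
    simp [h3, h5, h6, h7]
    abel
  rw [e1, e2]
  have e3 : trace k _ (y11 ∘ₗ (x12 ∘ₗ ξ21)) = trace k _ (x12 ∘ₗ (ξ21 ∘ₗ y11)) := by
    rw [trace_comp_comm']; rfl
  have e4 : trace k _ (y22 ∘ₗ (η21 ∘ₗ x12)) = trace k _ (x12 ∘ₗ (y22 ∘ₗ η21)) := by
    rw [trace_comp_comm' (y22 ∘ₗ η21) x12]; rfl
  have e5 : x12 ∘ₗ (y22 ∘ₗ η21 - ξ21 ∘ₗ y11) = x12 ∘ₗ (y22 ∘ₗ η21) - x12 ∘ₗ (ξ21 ∘ₗ y11) := by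
    ext v; simp
  rw [map_add, map_sub, map_add, e3, e4, e5, map_sub (trace k A')]
  ring

end trace

section families

variable {I E : Type*} [Fintype E] {Q : Qv I E}
variable {V₁ V₂ : Option I → Type*} [∀ j, AddCommGroup (V₁ j)] [∀ j, Module k (V₁ j)]
  [∀ j, AddCommGroup (V₂ j)] [∀ j, Module k (V₂ j)]
  [∀ j, Module.Finite k (V₁ j)] [∀ j, Module.Finite k (V₂ j)]

/-- upper triangular representation -/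
def upR (x₁ : Rep k Q V₁) (x₁₂ : ∀ a, V₂ (some (Q.src a)) →ₗ[k] V₁ (Q.tgt a)) (x₂ : Rep k Q V₂) :
    Rep k Q (fun j => V₁ j × V₂ j) := fun a => up (x₁ a) (x₁₂ a) (x₂ a)

/-- upper triangular dual representation -/
def upD (y₁ : Red k Q V₁) (y₁₂ : ∀ a, V₂ (Q.tgt a) →ₗ[k] V₁ (some (Q.src a))) (y₂ : Red k Q V₂) :
    Red k Q (fun j => V₁ j × V₂ j) := fun a => up (y₁ a) (y₁₂ a) (y₂ a)

/-- extension by zero of a family of maps `V₁ i → V₂ i` -/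
def ex2 (ψ : ∀ i : I, V₁ (some i) →ₗ[k] V₂ (some i)) : ∀ j, V₁ j →ₗ[k] V₂ j
  | none => 0
  | some i => ψ i

@[simp] theorem ex2_none (ψ : ∀ i : I, V₁ (some i) →ₗ[k] V₂ (some i)) : ex2 ψ none = 0 := rfl
@[simp] theorem ex2_some (ψ : ∀ i : I, V₁ (some i) →ₗ[k] V₂ (some i)) (i : I) :
    ex2 ψ (some i) = ψ i := rfl

/-- the `21` block of a Lie algebra element -/
def l21 (ξ : Lie k (fun j => V₁ j × V₂ j)) (i : I) : V₁ (some i) →ₗ[k] V₂ (some i) :=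
  snd k _ _ ∘ₗ ξ i ∘ₗ inl k _ _
/-- the `11` block of a Lie algebra element -/
def l11 (ξ : Lie k (fun j => V₁ j × V₂ j)) : Lie k V₁ := fun _ => fst k _ _ ∘ₗ ξ _ ∘ₗ inl k _ _
/-- the `22` block of a Lie algebra element -/
def l22 (ξ : Lie k (fun j => V₁ j × V₂ j)) : Lie k V₂ := fun _ => snd k _ _ ∘ₗ ξ _ ∘ₗ inr k _ _

/-- the off-diagonal part of the moment map -/
noncomputable def off (x₁ : Rep k Q V₁) (y₁ : Red k Q V₁) (x₂ : Rep k Q V₂) (y₂ : Red k Q V₂)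
    (x₁₂ : ∀ a, V₂ (some (Q.src a)) →ₗ[k] V₁ (Q.tgt a))
    (y₁₂ : ∀ a, V₂ (Q.tgt a) →ₗ[k] V₁ (some (Q.src a)))
    (ψ : ∀ i : I, V₁ (some i) →ₗ[k] V₂ (some i)) : k :=
  ∑ a, (trace k _ (x₁₂ a ∘ₗ (y₂ a ∘ₗ ex2 ψ (Q.tgt a) - ψ (Q.src a) ∘ₗ y₁ a))
    + trace k _ (y₁₂ a ∘ₗ (ex2 ψ (Q.tgt a) ∘ₗ x₁ a - x₂ a ∘ₗ ψ (Q.src a))))

theorem pair_up (x₁ : Rep k Q V₁) (y₁ : Red k Q V₁) (x₂ : Rep k Q V₂) (y₂ : Red k Q V₂)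
    (x₁₂ : ∀ a, V₂ (some (Q.src a)) →ₗ[k] V₁ (Q.tgt a))
    (y₁₂ : ∀ a, V₂ (Q.tgt a) →ₗ[k] V₁ (some (Q.src a))) (ξ : Lie k (fun j => V₁ j × V₂ j)) :
    pair (upD y₁ y₁₂ y₂) (dot ξ (upR x₁ x₁₂ x₂))
      = pair y₁ (dot (l11 ξ) x₁) + pair y₂ (dot (l22 ξ) x₂) + off x₁ y₁ x₂ y₂ x₁₂ y₁₂ (l21 ξ) := by
  unfold pair off
  rw [← Finset.sum_add_distrib, ← Finset.sum_add_distrib]
  refine Finset.sum_congr rfl fun a _ => ?_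
  have h1 : ex (l11 ξ) (Q.tgt a) = fst k _ _ ∘ₗ ex ξ (Q.tgt a) ∘ₗ inl k _ _ := by
    rcases Q.tgt a with _ | i
    · simp
    · rfl
  have h2 : ex (l22 ξ) (Q.tgt a) = snd k _ _ ∘ₗ ex ξ (Q.tgt a) ∘ₗ inr k _ _ := by
    rcases Q.tgt a with _ | i
    · simp
    · rfl
  have h3 : ex2 (l21 ξ) (Q.tgt a) = snd k _ _ ∘ₗ ex ξ (Q.tgt a) ∘ₗ inl k _ _ := by
    rcases Q.tgt a with _ | i
    · simp
    · rfl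
  have := trace_up (x₁ a) (x₁₂ a) (x₂ a) (y₁ a) (y₁₂ a) (y₂ a) (ξ (Q.src a)) (ex ξ (Q.tgt a))
  show trace k _ (up (y₁ a) (y₁₂ a) (y₂ a) ∘ₗ (ex ξ (Q.tgt a) ∘ₗ up (x₁ a) (x₁₂ a) (x₂ a)
    - up (x₁ a) (x₁₂ a) (x₂ a) ∘ₗ ξ (Q.src a))) = _
  rw [this]
  simp only [dot, h1, h2, h3]
  rfl

/-- lower triangular, diagonal parts -/
def mkL (ξ₁ : Lie k V₁) (ξ₂ : Lie k V₂) (ψ : ∀ i : I, V₁ (some i) →ₗ[k] V₂ (some i)) :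
    Lie k (fun j => V₁ j × V₂ j) :=
  fun i => (ξ₁ i ∘ₗ fst k _ _).prod (ψ i ∘ₗ fst k _ _ + ξ₂ i ∘ₗ snd k _ _)

theorem l11_mkL (ξ₁ : Lie k V₁) (ξ₂ : Lie k V₂) (ψ : ∀ i : I, V₁ (some i) →ₗ[k] V₂ (some i)) :
    l11 (mkL ξ₁ ξ₂ ψ) = ξ₁ := by
  funext i; ext v; simp [l11, mkL]

theorem l22_mkL (ξ₁ : Lie k V₁) (ξ₂ : Lie k V₂) (ψ : ∀ i : I, V₁ (some i) →ₗ[k] V₂ (some i)) :
    l22 (mkL ξ₁ ξ₂ ψ) = ξ₂ := by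
  funext i; ext v; simp [l22, mkL]

theorem l21_mkL (ξ₁ : Lie k V₁) (ξ₂ : Lie k V₂) (ψ : ∀ i : I, V₁ (some i) →ₗ[k] V₂ (some i)) :
    l21 (mkL ξ₁ ξ₂ ψ) = ψ := by
  funext i; ext v; simp [l21, mkL]

theorem off_zero (x₁ : Rep k Q V₁) (y₁ : Red k Q V₁) (x₂ : Rep k Q V₂) (y₂ : Red k Q V₂)
    (x₁₂ : ∀ a, V₂ (some (Q.src a)) →ₗ[k] V₁ (Q.tgt a))
    (y₁₂ : ∀ a, V₂ (Q.tgt a) →ₗ[k] V₁ (some (Q.src a))) :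
    off x₁ y₁ x₂ y₂ x₁₂ y₁₂ 0 = 0 := by
  unfold off
  apply Finset.sum_eq_zero
  intro a _
  have : ex2 (0 : ∀ i : I, V₁ (some i) →ₗ[k] V₂ (some i)) (Q.tgt a) = 0 := by
    rcases Q.tgt a with _ | i <;> rfl
  simp [this]

theorem pair_dot_zero (x : Rep k Q V₁) (y : Red k Q V₁) : pair y (dot 0 x) = 0 := by
  unfold pair
  apply Finset.sum_eq_zero
  intro a _
  have : ex (0 : Lie k V₁) (Q.tgt a) = 0 := by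
    rcases Q.tgt a with _ | i <;> rfl
  simp [dot, this]

theorem muZero_up (x₁ : Rep k Q V₁) (y₁ : Red k Q V₁) (x₂ : Rep k Q V₂) (y₂ : Red k Q V₂)
    (x₁₂ : ∀ a, V₂ (some (Q.src a)) →ₗ[k] V₁ (Q.tgt a))
    (y₁₂ : ∀ a, V₂ (Q.tgt a) →ₗ[k] V₁ (some (Q.src a))) :
    MuZero (upR x₁ x₁₂ x₂) (upD y₁ y₁₂ y₂) ↔
      MuZero x₁ y₁ ∧ MuZero x₂ y₂ ∧ ∀ ψ, off x₁ y₁ x₂ y₂ x₁₂ y₁₂ ψ = 0 := by
  constructor
  · intro h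
    refine ⟨fun ξ => ?_, fun ξ => ?_, fun ψ => ?_⟩
    · have := h (mkL ξ 0 0)
      rw [pair_up, l11_mkL, l22_mkL, l21_mkL, off_zero, pair_dot_zero, add_zero, add_zero] at this
      exact this
    · have := h (mkL 0 ξ 0)
      rw [pair_up, l11_mkL, l22_mkL, l21_mkL, off_zero, pair_dot_zero, add_zero, zero_add] at this
      exact this
    · have := h (mkL 0 0 ψ)
      rw [pair_up, l11_mkL, l22_mkL, l21_mkL, pair_dot_zero, pair_dot_zero, zero_add,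
        zero_add] at this
      exact this
  · rintro ⟨h1, h2, h3⟩ ξ
    rw [pair_up, h1, h2, h3, add_zero, add_zero]

end families

end Vale.Agent.P291.N3
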