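import Mathlib
import Vale.Agent.P291.H415.N3.Block

/-!
# Counting upper triangular solutions
-/

namespace Vale.Agent.P291.N3

set_option linter.unusedSectionVars false

open LinearMap

variable {k : Type*} [Field k]

section pi

variable {ι : Type*} [Fintype ι] {A B : ι → Type*} [∀ i, AddCommGroup (A i)] [∀ i, Module k (A i)]
  [∀ i, AddCommGroup (B i)] [∀ i, Module k (B i)]

/-- the trace pairing of families of maps -/
noncomputable def piPair : (∀ i, A i →ₗ[k] B i) →ₗ[k] Module.Dual k (∀ i, B i →ₗ[k] A i) :=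
  LinearMap.mk₂ k (fun y x => ∑ i, trace k _ (y i ∘ₗ x i))
    (by intro y y' x; simp [LinearMap.add_comp, Finset.sum_add_distrib])
    (by intro c y x; simp [LinearMap.smul_comp, Finset.mul_sum])
    (by intro y x x'; simp [LinearMap.comp_add, Finset.sum_add_distrib])
    (by intro c y x; simp [LinearMap.comp_smul, Finset.mul_sum])

theorem piPair_apply (y : ∀ i, A i →ₗ[k] B i) (x : ∀ i, B i →ₗ[k] A i) :
    piPair y x = ∑ i, trace k _ (y i ∘ₗ x i) := rfl

theorem piPair_bijective [DecidableEq ι] [∀ i, Module.Finite k (A i)] [∀ i, Module.Finite k (B i)] :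
    Function.Bijective (piPair (k := k) (A := A) (B := B)) := by
  have hinj : Function.Injective (piPair (k := k) (A := A) (B := B)) := by
    rw [injective_iff_map_eq_zero]
    intro y hy
    funext a
    apply eq_zero_of_trace
    intro f
    have h1 : piPair y (Pi.single a f : ∀ i, B i →ₗ[k] A i) = 0 := by
      rw [hy]; rfl
    rw [piPair_apply, Finset.sum_eq_single a] at h1
    · simpa using h1
    · intro b _ hb
      rw [Pi.single_eq_of_ne hb, LinearMap.comp_zero, map_zero]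
    · intro h; exact absurd (Finset.mem_univ _) h
  have hfr : Module.finrank k (∀ i, A i →ₗ[k] B i)
      = Module.finrank k (Module.Dual k (∀ i, B i →ₗ[k] A i)) := by
    rw [Subspace.dual_finrank_eq, Module.finrank_pi_fintype, Module.finrank_pi_fintype]
    refine Finset.sum_congr rfl fun a _ => ?_
    rw [Module.finrank_linearMap, Module.finrank_linearMap, mul_comm]
  exact ⟨hinj, (LinearMap.injective_iff_surjective_of_finrank_eq_finrank hfr).1 hinj⟩

end pi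

variable {I E : Type*} [Fintype E] [Fintype I] {Q : Qv I E}
variable {V₁ V₂ : Option I → Type*} [∀ j, AddCommGroup (V₁ j)] [∀ j, Module k (V₁ j)]
  [∀ j, AddCommGroup (V₂ j)] [∀ j, Module k (V₂ j)]
  [∀ j, Module.Finite k (V₁ j)] [∀ j, Module.Finite k (V₂ j)]

variable (k Q V₁ V₂) in
/-- off-diagonal blocks -/
abbrev Off := (∀ a : E, V₂ (some (Q.src a)) →ₗ[k] V₁ (Q.tgt a)) ×
  (∀ a : E, V₂ (Q.tgt a) →ₗ[k] V₁ (some (Q.src a)))

variable (k Q V₁ V₂) in
/-- transposed off-diagonal blocks -/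
abbrev Off' := (∀ a : E, V₁ (Q.tgt a) →ₗ[k] V₂ (some (Q.src a))) ×
  (∀ a : E, V₁ (some (Q.src a)) →ₗ[k] V₂ (Q.tgt a))

variable (k V₁ V₂) in
/-- maps from `V₁` to `V₂` at the gauge vertices -/
abbrev Psi := ∀ i : I, V₁ (some i) →ₗ[k] V₂ (some i)

/-- the pairing of the off-diagonal blocks -/
noncomputable def offPair : Off k Q V₁ V₂ →ₗ[k] Module.Dual k (Off' k Q V₁ V₂) :=
  (Module.dualProdDualEquivDual k _ _).toLinearMap ∘ₗ (LinearMap.prodMap piPair piPair)

theorem offPair_apply (o : Off k Q V₁ V₂) (p : Off' k Q V₁ V₂) :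
    offPair o p = ∑ a, trace k _ (o.1 a ∘ₗ p.1 a) + ∑ a, trace k _ (o.2 a ∘ₗ p.2 a) := by
  simp [offPair, piPair_apply]

theorem offPair_bijective [DecidableEq E] :
    Function.Bijective (offPair (k := k) (Q := Q) (V₁ := V₁) (V₂ := V₂)) := by
  unfold offPair
  rw [LinearMap.coe_comp]
  apply Function.Bijective.comp
  · exact (Module.dualProdDualEquivDual k _ _).bijective
  · rw [LinearMap.coe_prodMap]
    exact Function.Bijective.prodMap piPair_bijective piPair_bijective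

/-- the linear map `ψ ↦ (y₂ψ - ψy₁, ψx₁ - x₂ψ)` -/
def comm (x₁ : Rep k Q V₁) (y₁ : Red k Q V₁) (x₂ : Rep k Q V₂) (y₂ : Red k Q V₂) :
    Psi k V₁ V₂ →ₗ[k] Off' k Q V₁ V₂ where
  toFun ψ := (fun a => y₂ a ∘ₗ ex2 ψ (Q.tgt a) - ψ (Q.src a) ∘ₗ y₁ a,
    fun a => ex2 ψ (Q.tgt a) ∘ₗ x₁ a - x₂ a ∘ₗ ψ (Q.src a))
  map_add' := by
    intro ψ ψ'
    have h : ∀ j, ex2 (ψ + ψ') j = ex2 ψ j + ex2 ψ' j := by
      rintro (_ | i)
      · simp
      · rfl
    apply Prod.ext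
    · funext a
      ext v
      simp [h]
      abel
    · funext a
      ext v
      simp [h]
      abel
  map_smul' := by
    intro c ψ
    have h : ∀ j, ex2 (c • ψ) j = c • ex2 ψ j := by
      rintro (_ | i)
      · simp
      · rfl
    apply Prod.ext
    · funext a
      ext v
      simp [h, smul_sub]
    · funext a
      ext v
      simp [h, smul_sub]

theorem off_eq (x₁ : Rep k Q V₁) (y₁ : Red k Q V₁) (x₂ : Rep k Q V₂) (y₂ : Red k Q V₂)
    (o : Off k Q V₁ V₂) (ψ : Psi k V₁ V₂) :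
    off x₁ y₁ x₂ y₂ o.1 o.2 ψ = offPair o (comm x₁ y₁ x₂ y₂ ψ) := by
  rw [offPair_apply, off, Finset.sum_add_distrib]
  rfl

theorem comm_eq_zero (x₁ : Rep k Q V₁) (y₁ : Red k Q V₁) {x₂ : Rep k Q V₂} {y₂ : Red k Q V₂}
    (h : Stable x₂ y₂) (ψ : Psi k V₁ V₂) (hψ : comm x₁ y₁ x₂ y₂ ψ = 0) : ψ = 0 := by
  have h1 := congrArg Prod.fst hψ
  have h2 := congrArg Prod.snd hψ
  have hU : Inv x₂ y₂ (fun j => LinearMap.range (ex2 ψ j)) := by
    refine ⟨?_, ?_, ?_⟩
    · show LinearMap.range (ex2 ψ none) = ⊥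
      rw [ex2_none, LinearMap.range_zero]
    · rintro a _ ⟨v, rfl⟩
      refine ⟨x₁ a v, ?_⟩
      have h3 := congrFun h2 a
      have h4 : (ex2 ψ (Q.tgt a) ∘ₗ x₁ a - x₂ a ∘ₗ ψ (Q.src a)) v = 0 := by
        have : ex2 ψ (Q.tgt a) ∘ₗ x₁ a - x₂ a ∘ₗ ψ (Q.src a) = 0 := h3
        rw [this]; rfl
      rw [LinearMap.sub_apply, sub_eq_zero] at h4
      exact h4
    · rintro a _ ⟨v, rfl⟩
      refine ⟨y₁ a v, ?_⟩
      have h3 := congrFun h1 a
      have h4 : (y₂ a ∘ₗ ex2 ψ (Q.tgt a) - ψ (Q.src a) ∘ₗ y₁ a) v = 0 := by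
        have : y₂ a ∘ₗ ex2 ψ (Q.tgt a) - ψ (Q.src a) ∘ₗ y₁ a = 0 := h3
        rw [this]; rfl
      rw [LinearMap.sub_apply, sub_eq_zero] at h4
      exact h4.symm
  funext i
  have h3 := h _ hU (some i)
  rw [LinearMap.range_eq_bot] at h3
  exact h3

variable [Finite k]

theorem card_off (x₁ : Rep k Q V₁) (y₁ : Red k Q V₁) {x₂ : Rep k Q V₂} {y₂ : Red k Q V₂}
    (h : Stable x₂ y₂) :
    Nat.card {o : Off k Q V₁ V₂ // ∀ ψ, off x₁ y₁ x₂ y₂ o.1 o.2 ψ = 0} * Nat.card (Psi k V₁ V₂)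
      = Nat.card (Off k Q V₁ V₂) := by
  classical
  have h1 := card_perp (k := k) (offPair (k := k) (Q := Q) (V₁ := V₁) (V₂ := V₂)) offPair_bijective
    (comm x₁ y₁ x₂ y₂)
  simp only [off_eq]
  rw [h1]
  have h2 : Nat.card {m : Psi k V₁ V₂ // comm x₁ y₁ x₂ y₂ m = 0} = 1 := by
    have : Unique {m : Psi k V₁ V₂ // comm x₁ y₁ x₂ y₂ m = 0} := by
      refine ⟨⟨⟨0, map_zero _⟩⟩, ?_⟩
      rintro ⟨ψ, hψ⟩
      apply Subtype.ext
      exact comm_eq_zero x₁ y₁ h ψ hψ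
    exact Nat.card_unique
  rw [h2, one_mul]

end Vale.Agent.P291.N3
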