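import Mathlib
import Vale.Agent.P291.H415.N3.Off

/-!
# The solutions with prescribed destabilising subspace
-/

namespace Vale.Agent.P291.N3

set_option linter.unusedSectionVars false

open LinearMap

variable {k : Type*} [Field k]
variable {I E : Type*} [Fintype E] [Fintype I] {Q : Qv I E}
variable {V₁ V₂ : Option I → Type*} [∀ j, AddCommGroup (V₁ j)] [∀ j, Module k (V₁ j)]
  [∀ j, AddCommGroup (V₂ j)] [∀ j, Module k (V₂ j)]
  [∀ j, Module.Finite k (V₁ j)] [∀ j, Module.Finite k (V₂ j)]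

variable (k V₁ V₂) in
/-- the first summand -/
def K1 (j : Option I) : Submodule k (V₁ j × V₂ j) := LinearMap.range (inl k (V₁ j) (V₂ j))

variable (k V₁ V₂) in
/-- the second summand -/
def K2 (j : Option I) : Submodule k (V₁ j × V₂ j) := LinearMap.range (inr k (V₁ j) (V₂ j))

theorem mem_K1 {j : Option I} {v : V₁ j × V₂ j} : v ∈ K1 k V₁ V₂ j ↔ v.2 = 0 := by
  constructor
  · rintro ⟨u, rfl⟩; rfl
  · intro h; exact ⟨v.1, by ext <;> simp [h]⟩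

theorem mem_K2 {j : Option I} {v : V₁ j × V₂ j} : v ∈ K2 k V₁ V₂ j ↔ v.1 = 0 := by
  constructor
  · rintro ⟨u, rfl⟩; rfl
  · intro h; exact ⟨v.2, by ext <;> simp [h]⟩

theorem K1_inv [Subsingleton (V₁ none)] (x₁ : Rep k Q V₁) (y₁ : Red k Q V₁) (x₂ : Rep k Q V₂)
    (y₂ : Red k Q V₂) (o : Off k Q V₁ V₂) :
    Inv (upR x₁ o.1 x₂) (upD y₁ o.2 y₂) (K1 k V₁ V₂) := by
  refine ⟨?_, ?_, ?_⟩
  · rw [eq_bot_iff]
    rintro _ ⟨u, rfl⟩
    rw [Subsingleton.elim u 0, map_zero]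
    exact Submodule.zero_mem _
  · rintro a v hv
    rw [mem_K1] at hv ⊢
    show x₂ a v.2 = 0
    rw [hv, map_zero]
  · rintro a v hv
    rw [mem_K1] at hv ⊢
    show y₂ a v.2 = 0
    rw [hv, map_zero]

theorem umax_up_iff [Subsingleton (V₁ none)] (x₁ : Rep k Q V₁) (y₁ : Red k Q V₁)
    (x₂ : Rep k Q V₂) (y₂ : Red k Q V₂) (o : Off k Q V₁ V₂) :
    (∀ j, umax (upR x₁ o.1 x₂) (upD y₁ o.2 y₂) j = K1 k V₁ V₂ j) ↔ Stable x₂ y₂ := by
  constructor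
  · intro h U hU j
    have hinv : Inv (upR x₁ o.1 x₂) (upD y₁ o.2 y₂)
        (fun j => (U j).comap (snd k (V₁ j) (V₂ j))) := by
      refine ⟨?_, ?_, ?_⟩
      · show (U none).comap _ = ⊥
        rw [hU.1, eq_bot_iff]
        rintro ⟨u, v⟩ huv
        rw [Submodule.mem_comap, Submodule.mem_bot] at huv
        rw [Submodule.mem_bot]
        have hv : v = 0 := huv
        rw [hv, Subsingleton.elim u 0]
        rfl
      · intro a v hv
        exact hU.2.1 a v.2 hv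
      · intro a v hv
        exact hU.2.2 a v.2 hv
    have h1 := le_umax hinv j
    rw [h j] at h1
    rw [eq_bot_iff]
    intro d hd
    have h2 : ((0, d) : V₁ j × V₂ j) ∈ K1 k V₁ V₂ j := h1 hd
    rw [mem_K1] at h2
    exact h2
  · intro h j
    apply le_antisymm _ (le_umax (K1_inv x₁ y₁ x₂ y₂ o) j)
    have hU := umax_inv (upR x₁ o.1 x₂) (upD y₁ o.2 y₂)
    have hinv : Inv x₂ y₂
        (fun j => (umax (upR x₁ o.1 x₂) (upD y₁ o.2 y₂) j).map (snd k (V₁ j) (V₂ j))) := by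
      refine ⟨?_, ?_, ?_⟩
      · show (umax (upR x₁ o.1 x₂) (upD y₁ o.2 y₂) none).map (snd k (V₁ none) (V₂ none)) = ⊥
        rw [hU.1, Submodule.map_bot]
      · rintro a _ ⟨v, hv, rfl⟩
        exact ⟨_, hU.2.1 a v hv, rfl⟩
      · rintro a _ ⟨v, hv, rfl⟩
        exact ⟨_, hU.2.2 a v hv, rfl⟩
    have h1 := h _ hinv j
    intro v hv
    have h2 : v.2 ∈ (umax (upR x₁ o.1 x₂) (upD y₁ o.2 y₂) j).map (snd k (V₁ j) (V₂ j)) :=
      ⟨v, hv, rfl⟩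
    have h1' : (umax (upR x₁ o.1 x₂) (upD y₁ o.2 y₂) j).map (snd k (V₁ j) (V₂ j)) = ⊥ := h1
    rw [h1', Submodule.mem_bot] at h2
    rw [mem_K1]
    exact h2

theorem eq_upR {x : Rep k Q (fun j => V₁ j × V₂ j)}
    (h : ∀ a, ∀ u ∈ K1 k V₁ V₂ (some (Q.src a)), x a u ∈ K1 k V₁ V₂ (Q.tgt a)) :
    x = upR (fun a => fst k _ _ ∘ₗ x a ∘ₗ inl k _ _) (fun a => fst k _ _ ∘ₗ x a ∘ₗ inr k _ _)
      (fun a => snd k _ _ ∘ₗ x a ∘ₗ inr k _ _) := by
  funext a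
  apply LinearMap.ext
  rintro ⟨u, v⟩
  have h1 : x a (u, v) = x a (u, 0) + x a (0, v) := by
    rw [← map_add]; simp
  have h2 : (x a (u, 0)).2 = 0 := by
    have := h a (u, 0) (mem_K1.2 rfl)
    rwa [mem_K1] at this
  rw [h1]
  show x a (u, 0) + x a (0, v) = ((x a (u, 0)).1 + (x a (0, v)).1, (x a (0, v)).2)
  ext
  · rfl
  · show (x a (u, 0)).2 + (x a (0, v)).2 = _
    rw [h2, zero_add]

theorem eq_upD {y : Red k Q (fun j => V₁ j × V₂ j)}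
    (h : ∀ a, ∀ u ∈ K1 k V₁ V₂ (Q.tgt a), y a u ∈ K1 k V₁ V₂ (some (Q.src a))) :
    y = upD (fun a => fst k _ _ ∘ₗ y a ∘ₗ inl k _ _) (fun a => fst k _ _ ∘ₗ y a ∘ₗ inr k _ _)
      (fun a => snd k _ _ ∘ₗ y a ∘ₗ inr k _ _) := by
  funext a
  apply LinearMap.ext
  rintro ⟨u, v⟩
  have h1 : y a (u, v) = y a (u, 0) + y a (0, v) := by
    rw [← map_add]; simp
  have h2 : (y a (u, 0)).2 = 0 := by
    have := h a (u, 0) (mem_K1.2 rfl)
    rwa [mem_K1] at this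
  rw [h1]
  show y a (u, 0) + y a (0, v) = ((y a (u, 0)).1 + (y a (0, v)).1, (y a (0, v)).2)
  ext
  · rfl
  · show (y a (u, 0)).2 + (y a (0, v)).2 = _
    rw [h2, zero_add]

theorem upR_inj {x₁ x₁' : Rep k Q V₁} {x₂ x₂' : Rep k Q V₂}
    {o o' : ∀ a, V₂ (some (Q.src a)) →ₗ[k] V₁ (Q.tgt a)}
    (h : upR x₁ o x₂ = upR x₁' o' x₂') : x₁ = x₁' ∧ o = o' ∧ x₂ = x₂' := by
  have h1 : ∀ a v, upR x₁ o x₂ a v = upR x₁' o' x₂' a v := by rw [h]; intros; rfl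
  refine ⟨?_, ?_, ?_⟩
  · funext a; ext u
    have := congrArg Prod.fst (h1 a (u, 0))
    simpa [upR] using this
  · funext a; ext u
    have := congrArg Prod.fst (h1 a (0, u))
    simpa [upR] using this
  · funext a; ext u
    have := congrArg Prod.snd (h1 a (0, u))
    simpa [upR] using this

theorem upD_inj {y₁ y₁' : Red k Q V₁} {y₂ y₂' : Red k Q V₂}
    {o o' : ∀ a, V₂ (Q.tgt a) →ₗ[k] V₁ (some (Q.src a))}
    (h : upD y₁ o y₂ = upD y₁' o' y₂') : y₁ = y₁' ∧ o = o' ∧ y₂ = y₂' := by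
  have h1 : ∀ a v, upD y₁ o y₂ a v = upD y₁' o' y₂' a v := by rw [h]; intros; rfl
  refine ⟨?_, ?_, ?_⟩
  · funext a; ext u
    have := congrArg Prod.fst (h1 a (u, 0))
    simpa [upD] using this
  · funext a; ext u
    have := congrArg Prod.fst (h1 a (0, u))
    simpa [upD] using this
  · funext a; ext u
    have := congrArg Prod.snd (h1 a (0, u))
    simpa [upD] using this

section counts

variable (k Q)
variable (V : Option I → Type*) [∀ j, AddCommGroup (V j)] [∀ j, Module k (V j)]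

/-- the zero set of the moment map -/
abbrev ZZ := {p : Rep k Q V × Red k Q V // MuZero p.1 p.2}

/-- the stable points of the zero set of the moment map -/
abbrev ST := {p : Rep k Q V × Red k Q V // MuZero p.1 p.2 ∧ Stable p.1 p.2}

/-- the gauge group -/
abbrev Gau := ∀ i : I, V (some i) ≃ₗ[k] V (some i)

end counts

variable [Finite k]

instance finite_lin {A B : Type*} [AddCommGroup A] [Module k A] [AddCommGroup B] [Module k B]
    [Module.Finite k A] [Module.Finite k B] : Finite (A →ₗ[k] B) := Module.finite_of_finite k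

theorem card_std [Subsingleton (V₁ none)] :
    Nat.card {p : Rep k Q (fun j => V₁ j × V₂ j) × Red k Q (fun j => V₁ j × V₂ j) //
        MuZero p.1 p.2 ∧ ∀ j, umax p.1 p.2 j = K1 k V₁ V₂ j} * Nat.card (Psi k V₁ V₂)
      = Nat.card (ZZ k Q V₁) * Nat.card (ST k Q V₂) * Nat.card (Off k Q V₁ V₂) := by
  classical
  let f : (Σ q : ZZ k Q V₁ × ST k Q V₂,
      {o : Off k Q V₁ V₂ // ∀ ψ, off q.1.1.1 q.1.1.2 q.2.1.1 q.2.1.2 o.1 o.2 ψ = 0}) →
      {p : Rep k Q (fun j => V₁ j × V₂ j) × Red k Q (fun j => V₁ j × V₂ j) //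
        MuZero p.1 p.2 ∧ ∀ j, umax p.1 p.2 j = K1 k V₁ V₂ j} := fun t =>
    ⟨(upR t.1.1.1.1 t.2.1.1 t.1.2.1.1, upD t.1.1.1.2 t.2.1.2 t.1.2.1.2),
      (muZero_up _ _ _ _ _ _).2 ⟨t.1.1.2, t.1.2.2.1, t.2.2⟩,
      (umax_up_iff _ _ _ _ t.2.1).2 t.1.2.2.2⟩
  have hf : Function.Bijective f := by
    constructor
    · rintro ⟨⟨⟨⟨x₁, y₁⟩, h1⟩, ⟨⟨x₂, y₂⟩, h2⟩⟩, ⟨⟨o1, o2⟩, h3⟩⟩
        ⟨⟨⟨⟨x₁', y₁'⟩, h1'⟩, ⟨⟨x₂', y₂'⟩, h2'⟩⟩, ⟨⟨o1', o2'⟩, h3'⟩⟩ h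
      have e1 := congrArg (fun p => p.1.1) h
      have e2 := congrArg (fun p => p.1.2) h
      obtain ⟨rfl, rfl, rfl⟩ := upR_inj e1
      obtain ⟨rfl, rfl, rfl⟩ := upD_inj e2
      rfl
    · rintro ⟨⟨x, y⟩, h1, h2⟩
      have hinv := umax_inv x y
      have hK : Inv x y (K1 k V₁ V₂) := by
        have : umax x y = K1 k V₁ V₂ := funext h2
        rwa [this] at hinv
      have hx := eq_upR hK.2.1
      have hy := eq_upD hK.2.2
      simp only at h1 h2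
      generalize (fun a => fst k _ _ ∘ₗ x a ∘ₗ inl k _ _ : Rep k Q V₁) = x₁ at hx
      generalize (fun a => fst k _ _ ∘ₗ x a ∘ₗ inr k _ _ :
        ∀ a : E, V₂ (some (Q.src a)) →ₗ[k] V₁ (Q.tgt a)) = x₁₂ at hx
      generalize (fun a => snd k _ _ ∘ₗ x a ∘ₗ inr k _ _ : Rep k Q V₂) = x₂ at hx
      generalize (fun a => fst k _ _ ∘ₗ y a ∘ₗ inl k _ _ : Red k Q V₁) = y₁ at hy
      generalize (fun a => fst k _ _ ∘ₗ y a ∘ₗ inr k _ _ :
        ∀ a : E, V₂ (Q.tgt a) →ₗ[k] V₁ (some (Q.src a))) = y₁₂ at hy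
      generalize (fun a => snd k _ _ ∘ₗ y a ∘ₗ inr k _ _ : Red k Q V₂) = y₂ at hy
      subst hx hy
      have h3 := (muZero_up _ _ _ _ _ _).1 h1
      have h4 := (umax_up_iff _ _ _ _ (x₁₂, y₁₂)).1 h2
      exact ⟨⟨(⟨(x₁, y₁), h3.1⟩, ⟨(x₂, y₂), h3.2.1, h4⟩), ⟨(x₁₂, y₁₂), h3.2.2⟩⟩, rfl⟩
  rw [← Nat.card_congr (Equiv.ofBijective f hf)]
  have : Fintype (ZZ k Q V₁ × ST k Q V₂) := Fintype.ofFinite _
  rw [Nat.card_sigma, Finset.sum_mul]
  have h5 : ∀ q : ZZ k Q V₁ × ST k Q V₂,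
      Nat.card {o : Off k Q V₁ V₂ // ∀ ψ, off q.1.1.1 q.1.1.2 q.2.1.1 q.2.1.2 o.1 o.2 ψ = 0}
        * Nat.card (Psi k V₁ V₂) = Nat.card (Off k Q V₁ V₂) := fun q =>
    card_off q.1.1.1 q.1.1.2 q.2.2.2
  rw [Finset.sum_congr rfl fun q _ => h5 q, Finset.sum_const, smul_eq_mul, Finset.card_univ,
    ← Nat.card_eq_fintype_card, Nat.card_prod]

end Vale.Agent.P291.N3
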