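import Mathlib
import Vale.Agent.P291.H415.N3.Std

/-!
# Stabilisers and double counting
-/

namespace Vale.Agent.P291.N3

set_option linter.unusedSectionVars false

open LinearMap

/-- double counting -/
theorem double_count {Φ X Y : Type*} [Finite Φ] [Finite X] [Finite Y] (τ : Φ → X ≃ Y)
    (std : X → Prop) (D : Y → Prop) (P : ℕ)
    (h1 : ∀ y, D y → Nat.card {φ // std ((τ φ).symm y)} = P)
    (h2 : ∀ y, ¬ D y → ∀ φ, ¬ std ((τ φ).symm y)) :
    Nat.card {y // D y} * P = Nat.card Φ * Nat.card {x // std x} := by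
  classical
  have : Fintype Φ := Fintype.ofFinite _
  have : Fintype X := Fintype.ofFinite _
  have : Fintype Y := Fintype.ofFinite _
  have e1 : Nat.card {p : Φ × Y // std ((τ p.1).symm p.2)} = Nat.card Φ * Nat.card {x // std x} := by
    rw [Nat.card_congr (Equiv.subtypeProdEquivSigmaSubtype
      (fun (φ : Φ) (y : Y) => std ((τ φ).symm y))), Nat.card_sigma]
    have : ∀ φ : Φ, Nat.card {y // std ((τ φ).symm y)} = Nat.card {x // std x} := by
      intro φ
      refine Nat.card_congr ((τ φ).symm.subtypeEquiv ?_)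
      intro y; rfl
    rw [Finset.sum_congr rfl fun φ _ => this φ, Finset.sum_const, smul_eq_mul, Finset.card_univ,
      ← Nat.card_eq_fintype_card]
  have e2 : Nat.card {p : Y × Φ // std ((τ p.2).symm p.1)} = Nat.card {y // D y} * P := by
    rw [Nat.card_congr (Equiv.subtypeProdEquivSigmaSubtype
      (fun (y : Y) (φ : Φ) => std ((τ φ).symm y))), Nat.card_sigma]
    have : ∀ y : Y, Nat.card {φ // std ((τ φ).symm y)} = if D y then P else 0 := by
      intro y
      split_ifs with h
      · exact h1 y h
      · have : IsEmpty {φ // std ((τ φ).symm y)} := ⟨fun φ => h2 y h φ.1 φ.2⟩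
        exact Nat.card_of_isEmpty
    rw [Finset.sum_congr rfl fun y _ => this y, ← Finset.sum_filter, Finset.sum_const, smul_eq_mul,
      Nat.card_eq_fintype_card, Fintype.card_subtype]
  rw [← e2, ← e1]
  refine Nat.card_congr ((Equiv.prodComm Y Φ).subtypeEquiv ?_)
  rintro ⟨y, φ⟩; rfl

section vertex

variable {k : Type*} [Field k] {A B : Type*} [AddCommGroup A] [Module k A] [AddCommGroup B]
  [Module k B] [Module.Finite k A] [Module.Finite k B]

/-- the upper triangular automorphism -/
def upE (α : A ≃ₗ[k] A) (γ : B →ₗ[k] A) (β : B ≃ₗ[k] B) : (A × B) ≃ₗ[k] (A × B) :=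
  LinearEquiv.ofLinearMap (up α.toLinearMap γ β.toLinearMap)
    (up α.symm.toLinearMap (-(α.symm.toLinearMap ∘ₗ γ ∘ₗ β.symm.toLinearMap))
      β.symm.toLinearMap)
    (by ext v <;> simp) (by ext v <;> simp)

theorem upE_apply (α : A ≃ₗ[k] A) (γ : B →ₗ[k] A) (β : B ≃ₗ[k] B) (v : A × B) :
    upE α γ β v = (α v.1 + γ v.2, β v.2) := rfl

theorem card_stab_vertex : Nat.card {g : (A × B) ≃ₗ[k] (A × B) //
      (range (inl k A B)).map g.toLinearMap = range (inl k A B)}
    = Nat.card (A ≃ₗ[k] A) * Nat.card (B ≃ₗ[k] B) * Nat.card (B →ₗ[k] A) := by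
  let f : ((A ≃ₗ[k] A) × (B ≃ₗ[k] B)) × (B →ₗ[k] A) → {g : (A × B) ≃ₗ[k] (A × B) //
      (range (inl k A B)).map g.toLinearMap = range (inl k A B)} := fun t =>
    ⟨upE t.1.1 t.2 t.1.2, by
      ext v
      constructor
      · rintro ⟨_, ⟨u, rfl⟩, rfl⟩
        exact ⟨t.1.1 u, by simp [upE_apply]⟩
      · rintro ⟨u, rfl⟩
        exact ⟨inl k A B (t.1.1.symm u), ⟨_, rfl⟩, by simp [upE_apply]⟩⟩
  have hf : Function.Bijective f := by
    constructor
    · rintro ⟨⟨α, β⟩, γ⟩ ⟨⟨α', β'⟩, γ'⟩ h
      have h1 : ∀ v : A × B, upE α γ β v = upE α' γ' β' v := by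
        intro v
        have := congrArg Subtype.val h
        show (f ((α, β), γ)).1 v = (f ((α', β'), γ')).1 v
        rw [this]
      simp only [upE_apply] at h1
      have hα : α = α' := by
        ext u
        have := congrArg Prod.fst (h1 (u, 0))
        simpa using this
      have hβ : β = β' := by
        ext u
        have := congrArg Prod.snd (h1 (0, u))
        simpa using this
      have hγ : γ = γ' := by
        ext u
        have := congrArg Prod.fst (h1 (0, u))
        simpa using this
      rw [hα, hβ, hγ]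
    · rintro ⟨g, hg⟩
      have hmem : ∀ u : A, (g (u, 0)).2 = 0 := by
        intro u
        have : g (u, 0) ∈ range (inl k A B) := by
          rw [← hg]
          exact ⟨(u, 0), ⟨u, rfl⟩, rfl⟩
        obtain ⟨w, hw⟩ := this
        rw [← hw]; rfl
      have hadd : ∀ u v, g (u, v) = g (u, 0) + g (0, v) := by
        intro u v
        rw [← map_add]; simp
      let α0 : A →ₗ[k] A := fst k A B ∘ₗ g.toLinearMap ∘ₗ inl k A B
      let β0 : B →ₗ[k] B := snd k A B ∘ₗ g.toLinearMap ∘ₗ inr k A B
      let γ0 : B →ₗ[k] A := fst k A B ∘ₗ g.toLinearMap ∘ₗ inr k A B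
      have hα : Function.Injective α0 := by
        rw [injective_iff_map_eq_zero]
        intro u hu
        have h1 : (g (u, 0)).1 = 0 := hu
        have h2 : g (u, 0) = 0 := Prod.ext h1 (hmem u)
        have h3 : ((u, 0) : A × B) = 0 := by
          apply g.injective
          rw [h2, map_zero]
        exact congrArg Prod.fst h3
      have hβ : Function.Surjective β0 := by
        intro b
        obtain ⟨⟨a', b'⟩, h⟩ := g.surjective (0, b)
        refine ⟨b', ?_⟩
        rw [hadd] at h
        have := congrArg Prod.snd h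
        simp only [Prod.snd_add, hmem, zero_add] at this
        exact this
      have hα' : Function.Bijective α0 := ⟨hα, LinearMap.injective_iff_surjective.1 hα⟩
      have hβ' : Function.Bijective β0 := ⟨LinearMap.injective_iff_surjective.2 hβ, hβ⟩
      refine ⟨((LinearEquiv.ofBijective α0 hα', LinearEquiv.ofBijective β0 hβ'), γ0), ?_⟩
      apply Subtype.ext
      apply LinearEquiv.ext
      rintro ⟨u, v⟩
      show upE (LinearEquiv.ofBijective α0 hα') γ0 (LinearEquiv.ofBijective β0 hβ') (u, v) = g (u, v)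
      rw [upE_apply, hadd]
      apply Prod.ext
      · rfl
      · show β0 v = (g (u, 0) + g (0, v)).2
        rw [Prod.snd_add, hmem, zero_add]
        rfl
  rw [← Nat.card_congr (Equiv.ofBijective f hf), Nat.card_prod, Nat.card_prod]

theorem card_stab2_vertex : Nat.card {g : (A × B) ≃ₗ[k] (A × B) //
      (range (inl k A B)).map g.toLinearMap = range (inl k A B) ∧
      (range (inr k A B)).map g.toLinearMap = range (inr k A B)}
    = Nat.card (A ≃ₗ[k] A) * Nat.card (B ≃ₗ[k] B) := by
  let f : (A ≃ₗ[k] A) × (B ≃ₗ[k] B) → {g : (A × B) ≃ₗ[k] (A × B) //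
      (range (inl k A B)).map g.toLinearMap = range (inl k A B) ∧
      (range (inr k A B)).map g.toLinearMap = range (inr k A B)} := fun t =>
    ⟨LinearEquiv.prodCongr t.1 t.2, by
      constructor
      · ext v
        constructor
        · rintro ⟨_, ⟨u, rfl⟩, rfl⟩
          exact ⟨t.1 u, by simp⟩
        · rintro ⟨u, rfl⟩
          exact ⟨inl k A B (t.1.symm u), ⟨_, rfl⟩, by simp⟩
      · ext v
        constructor
        · rintro ⟨_, ⟨u, rfl⟩, rfl⟩
          exact ⟨t.2 u, by simp⟩
        · rintro ⟨u, rfl⟩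
          exact ⟨inr k A B (t.2.symm u), ⟨_, rfl⟩, by simp⟩⟩
  have hf : Function.Bijective f := by
    constructor
    · rintro ⟨α, β⟩ ⟨α', β'⟩ h
      have h1 : ∀ v : A × B, (α v.1, β v.2) = (α' v.1, β' v.2) := by
        intro v
        have := congrArg Subtype.val h
        show (f (α, β)).1 v = (f (α', β')).1 v
        rw [this]
      have hα : α = α' := by
        ext u
        exact congrArg Prod.fst (h1 (u, 0))
      have hβ : β = β' := by
        ext u
        exact congrArg Prod.snd (h1 (0, u))
      rw [hα, hβ]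
    · rintro ⟨g, hg1, hg2⟩
      have hmem : ∀ u : A, (g (u, 0)).2 = 0 := by
        intro u
        have : g (u, 0) ∈ range (inl k A B) := by
          rw [← hg1]
          exact ⟨(u, 0), ⟨u, rfl⟩, rfl⟩
        obtain ⟨w, hw⟩ := this
        rw [← hw]; rfl
      have hmem2 : ∀ u : B, (g (0, u)).1 = 0 := by
        intro u
        have : g (0, u) ∈ range (inr k A B) := by
          rw [← hg2]
          exact ⟨(0, u), ⟨u, rfl⟩, rfl⟩
        obtain ⟨w, hw⟩ := this
        rw [← hw]; rfl
      have hadd : ∀ u v, g (u, v) = g (u, 0) + g (0, v) := by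
        intro u v
        rw [← map_add]; simp
      let α0 : A →ₗ[k] A := fst k A B ∘ₗ g.toLinearMap ∘ₗ inl k A B
      let β0 : B →ₗ[k] B := snd k A B ∘ₗ g.toLinearMap ∘ₗ inr k A B
      have hα : Function.Injective α0 := by
        rw [injective_iff_map_eq_zero]
        intro u hu
        have h1 : (g (u, 0)).1 = 0 := hu
        have h2 : g (u, 0) = 0 := Prod.ext h1 (hmem u)
        have h3 : ((u, 0) : A × B) = 0 := by
          apply g.injective
          rw [h2, map_zero]
        exact congrArg Prod.fst h3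
      have hβ : Function.Injective β0 := by
        rw [injective_iff_map_eq_zero]
        intro u hu
        have h1 : (g (0, u)).2 = 0 := hu
        have h2 : g (0, u) = 0 := Prod.ext (hmem2 u) h1
        have h3 : ((0, u) : A × B) = 0 := by
          apply g.injective
          rw [h2, map_zero]
        exact congrArg Prod.snd h3
      have hα' : Function.Bijective α0 := ⟨hα, LinearMap.injective_iff_surjective.1 hα⟩
      have hβ' : Function.Bijective β0 := ⟨hβ, LinearMap.injective_iff_surjective.1 hβ⟩
      refine ⟨(LinearEquiv.ofBijective α0 hα', LinearEquiv.ofBijective β0 hβ'), ?_⟩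
      apply Subtype.ext
      apply LinearEquiv.ext
      rintro ⟨u, v⟩
      show (α0 u, β0 v) = g (u, v)
      rw [hadd]
      apply Prod.ext
      · show (g (u, 0)).1 = (g (u, 0)).1 + (g (0, v)).1
        rw [hmem2, add_zero]
      · show (g (0, v)).2 = (g (u, 0)).2 + (g (0, v)).2
        rw [hmem, zero_add]
  rw [← Nat.card_congr (Equiv.ofBijective f hf), Nat.card_prod]

/-- transitivity -/
theorem exists_adapted {W : Type*} [AddCommGroup W] [Module k W] [Module.Finite k W]
    (U K : Submodule k W) (hUK : IsCompl U K) (hU : Module.finrank k U = Module.finrank k A)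
    (hK : Module.finrank k K = Module.finrank k B) :
    ∃ g : (A × B) ≃ₗ[k] W, (range (inl k A B)).map g.toLinearMap = U ∧
      (range (inr k A B)).map g.toLinearMap = K := by
  let α : A ≃ₗ[k] U := LinearEquiv.ofFinrankEq _ _ hU.symm
  let β : B ≃ₗ[k] K := LinearEquiv.ofFinrankEq _ _ hK.symm
  refine ⟨(α.prodCongr β).trans (Submodule.prodEquivOfIsCompl U K hUK), ?_, ?_⟩
  · ext v
    constructor
    · rintro ⟨_, ⟨u, rfl⟩, rfl⟩
      simp
    · intro hv
      refine ⟨inl k A B (α.symm ⟨v, hv⟩), ⟨_, rfl⟩, ?_⟩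
      simp
  · ext v
    constructor
    · rintro ⟨_, ⟨u, rfl⟩, rfl⟩
      simp
    · intro hv
      refine ⟨inr k A B (β.symm ⟨v, hv⟩), ⟨_, rfl⟩, ?_⟩
      simp

end vertex

end Vale.Agent.P291.N3
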