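import Mathlib
import Vale.Agent.P291.H415.N3.Group

/-!
# Counting solutions by the dimension of the destabilising subspace
-/

namespace Vale.Agent.P291.N3

set_option linter.unusedSectionVars false

open LinearMap

variable {k : Type*} [Field k]
variable {I E : Type*} [Fintype E] [Fintype I] {Q : Qv I E}

section gx

variable {W V : Option I → Type*} [∀ j, AddCommGroup (W j)] [∀ j, Module k (W j)]
  [∀ j, AddCommGroup (V j)] [∀ j, Module k (V j)]

/-- a family of isomorphisms from an isomorphism of the framing spaces and isomorphisms at the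
gauge vertices -/
def gx (e0 : W none ≃ₗ[k] V none) (φ : ∀ i : I, W (some i) ≃ₗ[k] V (some i)) :
    ∀ j, W j ≃ₗ[k] V j
  | none => e0
  | some i => φ i

@[simp] theorem gx_none (e0 : W none ≃ₗ[k] V none) (φ : ∀ i : I, W (some i) ≃ₗ[k] V (some i)) :
    gx e0 φ none = e0 := rfl
@[simp] theorem gx_some (e0 : W none ≃ₗ[k] V none) (φ : ∀ i : I, W (some i) ≃ₗ[k] V (some i))
    (i : I) : gx e0 φ (some i) = φ i := rfl

/-- transport of pairs -/
def prE (φ : ∀ j, W j ≃ₗ[k] V j) : Rep k Q W × Red k Q W ≃ Rep k Q V × Red k Q V :=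
  Equiv.prodCongr (repE φ) (redE φ)

theorem prE_symm_apply (φ : ∀ j, W j ≃ₗ[k] V j) (p : Rep k Q V × Red k Q V) :
    (prE φ).symm p = (repE (fun j => (φ j).symm) p.1, redE (fun j => (φ j).symm) p.2) := by
  rw [Equiv.symm_apply_eq]
  apply Prod.ext
  · exact (repE_symm' φ p.1).symm
  · exact (redE_symm' φ p.2).symm

theorem card_isoF (φ₀ : ∀ i : I, W (some i) ≃ₗ[k] V (some i)) :
    Nat.card (∀ i : I, W (some i) ≃ₗ[k] V (some i)) = Nat.card (Gau k V) := by
  refine Nat.card_congr (Equiv.piCongrRight fun i => ?_)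
  exact { toFun := fun g => (φ₀ i).symm.trans g
          invFun := fun g => (φ₀ i).trans g
          left_inv := fun g => by ext v; simp
          right_inv := fun g => by ext v; simp }

end gx

variable {V₁ V₂ V : Option I → Type*} [∀ j, AddCommGroup (V₁ j)] [∀ j, Module k (V₁ j)]
  [∀ j, AddCommGroup (V₂ j)] [∀ j, Module k (V₂ j)]
  [∀ j, AddCommGroup (V j)] [∀ j, Module k (V j)]
  [∀ j, Module.Finite k (V₁ j)] [∀ j, Module.Finite k (V₂ j)] [∀ j, Module.Finite k (V j)]

theorem finrank_K1 (j : Option I) :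
    Module.finrank k (K1 k V₁ V₂ j) = Module.finrank k (V₁ j) :=
  LinearMap.finrank_range_of_inj LinearMap.inl_injective

theorem finrank_K2 (j : Option I) :
    Module.finrank k (K2 k V₁ V₂ j) = Module.finrank k (V₂ j) :=
  LinearMap.finrank_range_of_inj LinearMap.inr_injective

variable [Finite k]

theorem card_stab1 : Nat.card {g : ∀ i : I, (V₁ (some i) × V₂ (some i)) ≃ₗ[k]
      (V₁ (some i) × V₂ (some i)) // ∀ i, (K1 k V₁ V₂ (some i)).map (g i).toLinearMap
        = K1 k V₁ V₂ (some i)}
    = Nat.card (Gau k V₁) * Nat.card (Gau k V₂) * Nat.card (Psi k V₂ V₁) := by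
  have e := Nat.card_congr (Equiv.subtypePiEquivPi (β := fun i : I =>
    (V₁ (some i) × V₂ (some i)) ≃ₗ[k] (V₁ (some i) × V₂ (some i)))
    (p := fun i g => (K1 k V₁ V₂ (some i)).map g.toLinearMap = K1 k V₁ V₂ (some i)))
  rw [e, Nat.card_pi, Nat.card_pi, Nat.card_pi, Nat.card_pi, ← Finset.prod_mul_distrib,
    ← Finset.prod_mul_distrib]
  exact Finset.prod_congr rfl fun i _ => card_stab_vertex

theorem card_stab2 : Nat.card {g : ∀ i : I, (V₁ (some i) × V₂ (some i)) ≃ₗ[k]
      (V₁ (some i) × V₂ (some i)) // ∀ i, (K1 k V₁ V₂ (some i)).map (g i).toLinearMap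
        = K1 k V₁ V₂ (some i) ∧ (K2 k V₁ V₂ (some i)).map (g i).toLinearMap
        = K2 k V₁ V₂ (some i)}
    = Nat.card (Gau k V₁) * Nat.card (Gau k V₂) := by
  have e := Nat.card_congr (Equiv.subtypePiEquivPi (β := fun i : I =>
    (V₁ (some i) × V₂ (some i)) ≃ₗ[k] (V₁ (some i) × V₂ (some i)))
    (p := fun i g => (K1 k V₁ V₂ (some i)).map g.toLinearMap = K1 k V₁ V₂ (some i) ∧
      (K2 k V₁ V₂ (some i)).map g.toLinearMap = K2 k V₁ V₂ (some i)))
  rw [e, Nat.card_pi, Nat.card_pi, Nat.card_pi, ← Finset.prod_mul_distrib]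
  exact Finset.prod_congr rfl fun i _ => card_stab2_vertex

instance finite_lequiv {A B : Type*} [AddCommGroup A] [Module k A] [AddCommGroup B] [Module k B]
    [Module.Finite k A] [Module.Finite k B] : Finite (A ≃ₗ[k] B) :=
  Finite.of_injective (fun g => g.toLinearMap) LinearEquiv.toLinearMap_injective

/-- Number of solutions of the moment map equation whose destabilising subspace has given
dimension. -/
theorem hn_count [Subsingleton (V₁ none)] (e0 : (V₁ none × V₂ none) ≃ₗ[k] V none)
    (hdim : ∀ i : I, Module.finrank k (V₁ (some i)) + Module.finrank k (V₂ (some i))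
      = Module.finrank k (V (some i))) :
    Nat.card {p : Rep k Q V × Red k Q V // MuZero p.1 p.2 ∧
        ∀ i, Module.finrank k (umax p.1 p.2 (some i)) = Module.finrank k (V₁ (some i))} *
      (Nat.card (Gau k V₁) * Nat.card (Gau k V₂) * Nat.card (Psi k V₂ V₁))
    = Nat.card (Gau k V) *
      Nat.card {p : Rep k Q (fun j => V₁ j × V₂ j) × Red k Q (fun j => V₁ j × V₂ j) //
        MuZero p.1 p.2 ∧ ∀ j, umax p.1 p.2 j = K1 k V₁ V₂ j} := by
  have hφ : ∀ i : I, Nonempty ((V₁ (some i) × V₂ (some i)) ≃ₗ[k] V (some i)) := fun i =>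
    ⟨LinearEquiv.ofFinrankEq _ _ (by rw [Module.finrank_prod, hdim])⟩
  rw [← card_isoF (W := fun j => V₁ j × V₂ j) (fun i => (hφ i).some)]
  apply double_count
    (τ := fun φ : ∀ i : I, (V₁ (some i) × V₂ (some i)) ≃ₗ[k] V (some i) =>
      prE (Q := Q) (gx (W := fun j => V₁ j × V₂ j) e0 φ))
  · rintro ⟨x, y⟩ ⟨hmu, hfin⟩
    simp only at hmu hfin
    have hinv := umax_inv x y
    -- adapted isomorphisms
    have hc : ∀ i : I, ∃ K : Submodule k (V (some i)), IsCompl (umax x y (some i)) K := fun i =>
      Submodule.exists_isCompl _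
    choose K hK using hc
    have hg : ∀ i : I, ∃ g : (V₁ (some i) × V₂ (some i)) ≃ₗ[k] V (some i),
        (K1 k V₁ V₂ (some i)).map g.toLinearMap = umax x y (some i) := by
      intro i
      have h1 := Submodule.finrank_add_eq_of_isCompl (hK i)
      obtain ⟨g, hg1, _⟩ := exists_adapted (A := V₁ (some i)) (B := V₂ (some i))
        (umax x y (some i)) (K i) (hK i) (hfin i) (by
          have := hdim i
          have := hfin i
          omega)
      exact ⟨g, hg1⟩
    choose g hg using hg
    rw [← card_stab1 (k := k) (V₁ := V₁) (V₂ := V₂)]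
    have key : ∀ φ : ∀ i : I, (V₁ (some i) × V₂ (some i)) ≃ₗ[k] V (some i),
        (MuZero ((prE (Q := Q) (gx (W := fun j => V₁ j × V₂ j) e0 φ)).symm (x, y)).1
          ((prE (Q := Q) (gx (W := fun j => V₁ j × V₂ j) e0 φ)).symm (x, y)).2 ∧
        ∀ j, umax ((prE (Q := Q) (gx (W := fun j => V₁ j × V₂ j) e0 φ)).symm (x, y)).1
          ((prE (Q := Q) (gx (W := fun j => V₁ j × V₂ j) e0 φ)).symm (x, y)).2 j
          = K1 k V₁ V₂ j) ↔
        ∀ i, (K1 k V₁ V₂ (some i)).map (φ i).toLinearMap = umax x y (some i) := by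
      intro φ
      rw [prE_symm_apply]
      simp only
      constructor
      · rintro ⟨_, h⟩ i
        have h1 := h (some i)
        rw [umax_transport] at h1
        rw [← h1]
        ext v
        simp
      · intro h
        refine ⟨(muZero_transport _ x y).2 hmu, ?_⟩
        rintro (_ | i)
        · rw [umax_transport, hinv.1, Submodule.map_bot, eq_comm, eq_bot_iff]
          rintro _ ⟨u, rfl⟩
          rw [Subsingleton.elim u 0, map_zero]
          exact Submodule.zero_mem _
        · rw [umax_transport, ← h i]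
          ext v
          simp
    refine Nat.card_congr ?_
    exact
      { toFun := fun φ => ⟨fun i => (φ.1 i).trans (g i).symm, fun i => by
          have h1 := (key φ.1).1 φ.2 i
          rw [LinearEquiv.coe_trans, Submodule.map_comp, h1, ← hg i]
          ext v; simp⟩
        invFun := fun s => ⟨fun i => (s.1 i).trans (g i), by
          rw [key]
          intro i
          rw [LinearEquiv.coe_trans, Submodule.map_comp, s.2 i, hg i]⟩
        left_inv := fun φ => by
          apply Subtype.ext
          funext i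
          ext v
          simp
        right_inv := fun s => by
          apply Subtype.ext
          funext i
          ext v <;> simp }
  · rintro ⟨x, y⟩ hD φ ⟨h1, h2⟩
    apply hD
    rw [prE_symm_apply] at h1 h2
    simp only at h1 h2
    refine ⟨(muZero_transport _ x y).1 h1, fun i => ?_⟩
    have h3 := h2 (some i)
    rw [umax_transport] at h3
    have h4 := congrArg (fun U : Submodule k (V₁ (some i) × V₂ (some i)) =>
      Module.finrank k U) h3
    simp only [finrank_K1] at h4
    rw [← h4]
    exact (LinearEquiv.finrank_map_eq (φ i).symm (umax x y (some i))).symm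

end Vale.Agent.P291.N3
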