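import Mathlib
import Vale.Agent.P291.H415.N3.HN

/-!
# Fitting decomposition
-/

namespace Vale.Agent.P291.N3

set_option linter.unusedSectionVars false

open LinearMap

section single

variable {k : Type*} [Field k] {A : Type*} [AddCommGroup A] [Module k A] [Module.Finite k A]

theorem ker_pow_add (f : Module.End k A) {N : ℕ} (hN : Module.finrank k A ≤ N) (m : ℕ) :
    LinearMap.ker (f ^ m) ≤ LinearMap.ker (f ^ N) := by
  refine (Module.End.ker_pow_le_ker_pow_finrank f m).trans ?_
  obtain ⟨c, rfl⟩ := Nat.exists_eq_add_of_le hN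
  rw [add_comm, pow_add]
  intro v hv
  rw [LinearMap.mem_ker] at hv ⊢
  rw [Module.End.mul_apply, hv, map_zero]

theorem isCompl_fit (f : Module.End k A) {N : ℕ} (hN : Module.finrank k A ≤ N) :
    IsCompl (LinearMap.range (f ^ N)) (LinearMap.ker (f ^ N)) := by
  rw [Submodule.isCompl_iff_disjoint _ _ (by rw [LinearMap.finrank_range_add_finrank_ker])]
  rw [Submodule.disjoint_def]
  rintro _ ⟨u, rfl⟩ hv
  rw [LinearMap.mem_ker, ← Module.End.mul_apply, ← pow_add] at hv
  exact ker_pow_add f hN (N + N) hv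

theorem nilpotent_iff (f : Module.End k A) {N : ℕ} (hN : Module.finrank k A ≤ N) :
    IsNilpotent f ↔ f ^ N = 0 := by
  constructor
  · rintro ⟨m, hm⟩
    have := ker_pow_add f hN m
    rw [hm] at this
    ext v
    have h1 : v ∈ LinearMap.ker (0 : Module.End k A) := by simp
    have h2 := this h1
    rw [LinearMap.mem_ker] at h2
    rw [h2]; rfl
  · intro h; exact ⟨N, h⟩

theorem conj_pow' {B : Type*} [AddCommGroup B] [Module k B] (e : A ≃ₗ[k] B) (f : Module.End k A)
    (n : ℕ) : ((e.toLinearMap ∘ₗ f ∘ₗ e.symm.toLinearMap : Module.End k B)) ^ n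
      = e.toLinearMap ∘ₗ (f ^ n) ∘ₗ e.symm.toLinearMap := by
  induction n with
  | zero => ext v; simp
  | succ n ih =>
    rw [pow_succ, ih]
    ext v
    simp [pow_succ]

end single

variable {k : Type*} [Field k]
variable {I E : Type*} [Fintype E] [Fintype I] {Q : Qv I E}

variable (k Q) in
/-- pairs `(x, ξ)` with `ξ x = 0` -/
abbrev Com (V : Option I → Type*) [∀ j, AddCommGroup (V j)] [∀ j, Module k (V j)] :=
  {p : Rep k Q V × Lie k V // dot p.2 p.1 = 0}

variable (k Q) in
/-- pairs `(x, ξ)` with `ξ x = 0` and `ξ` nilpotent -/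
abbrev ComNil (V : Option I → Type*) [∀ j, AddCommGroup (V j)] [∀ j, Module k (V j)] :=
  {p : Rep k Q V × Lie k V // dot p.2 p.1 = 0 ∧ ∀ i, IsNilpotent (p.2 i : Module.End k (V (some i)))}

variable (k Q) in
/-- pairs `(x, ξ)` with `ξ x = 0` and `ξ` invertible -/
abbrev ComInv (V : Option I → Type*) [∀ j, AddCommGroup (V j)] [∀ j, Module k (V j)] :=
  {p : Rep k Q V × Lie k V // dot p.2 p.1 = 0 ∧ ∀ i, Function.Injective (p.2 i)}

section tr

variable {W V : Option I → Type*} [∀ j, AddCommGroup (W j)] [∀ j, Module k (W j)]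
  [∀ j, AddCommGroup (V j)] [∀ j, Module k (V j)]

/-- transport of pairs -/
def pcE (φ : ∀ j, W j ≃ₗ[k] V j) : Rep k Q W × Lie k W ≃ Rep k Q V × Lie k V :=
  Equiv.prodCongr (repE φ) (lieE φ)

theorem lieE_symm' (φ : ∀ j, W j ≃ₗ[k] V j) (ξ : Lie k V) :
    lieE φ (lieE (fun j => (φ j).symm) ξ) = ξ := by
  funext a; ext v; simp [lieE_apply]

theorem pcE_symm_apply (φ : ∀ j, W j ≃ₗ[k] V j) (p : Rep k Q V × Lie k V) :
    (pcE φ).symm p = (repE (fun j => (φ j).symm) p.1, lieE (fun j => (φ j).symm) p.2) := by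
  rw [Equiv.symm_apply_eq]
  apply Prod.ext
  · exact (repE_symm' φ p.1).symm
  · exact (lieE_symm' φ p.2).symm

theorem dot_eq_zero_transport (φ : ∀ j, W j ≃ₗ[k] V j) (x : Rep k Q W) (ξ : Lie k W) :
    dot (lieE φ ξ) (repE φ x) = 0 ↔ dot ξ x = 0 := by
  rw [dot_lieE]
  constructor
  · intro h
    have : repE φ (dot ξ x) = repE φ 0 := by
      rw [h]; funext a; ext v; simp [repE_apply]
    exact (repE φ).injective this
  · intro h
    rw [h]; funext a; ext v; simp [repE_apply]

theorem range_transport (φ : ∀ j, W j ≃ₗ[k] V j) (ξ : Lie k W) (N : ℕ) (i : I)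
    [Module.Finite k (W (some i))] :
    LinearMap.range ((lieE φ ξ i : Module.End k (V (some i))) ^ N)
      = (LinearMap.range ((ξ i : Module.End k (W (some i))) ^ N)).map (φ (some i)).toLinearMap := by
  rw [lieE_apply, conj_pow']
  ext v
  constructor
  · rintro ⟨u, rfl⟩
    exact ⟨((ξ i : Module.End k (W (some i))) ^ N) ((φ (some i)).symm u), ⟨_, rfl⟩, rfl⟩
  · rintro ⟨_, ⟨u, rfl⟩, rfl⟩
    exact ⟨φ (some i) u, by simp⟩

theorem ker_transport (φ : ∀ j, W j ≃ₗ[k] V j) (ξ : Lie k W) (N : ℕ) (i : I)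
    [Module.Finite k (W (some i))] :
    LinearMap.ker ((lieE φ ξ i : Module.End k (V (some i))) ^ N)
      = (LinearMap.ker ((ξ i : Module.End k (W (some i))) ^ N)).map (φ (some i)).toLinearMap := by
  rw [lieE_apply, conj_pow']
  ext v
  constructor
  · intro hv
    refine ⟨(φ (some i)).symm v, ?_, by simp⟩
    rw [LinearMap.mem_ker] at hv
    have : φ (some i) ((((ξ i : Module.End k (W (some i))) ^ N)) ((φ (some i)).symm v)) = 0 := hv
    show _ ∈ LinearMap.ker _
    rw [LinearMap.mem_ker]
    exact (LinearEquiv.map_eq_zero_iff _).1 this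
  · rintro ⟨u, hu, rfl⟩
    have hu' : ((ξ i : Module.End k (W (some i))) ^ N) u = 0 := hu
    rw [LinearMap.mem_ker]
    simp [hu']

end tr

variable {V₁ V₂ V : Option I → Type*} [∀ j, AddCommGroup (V₁ j)] [∀ j, Module k (V₁ j)]
  [∀ j, AddCommGroup (V₂ j)] [∀ j, Module k (V₂ j)]
  [∀ j, AddCommGroup (V j)] [∀ j, Module k (V j)]
  [∀ j, Module.Finite k (V₁ j)] [∀ j, Module.Finite k (V₂ j)] [∀ j, Module.Finite k (V j)]
variable [Finite k]

theorem fit_count (N : ℕ) (hN : ∀ i : I, Module.finrank k (V (some i)) ≤ N)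
    (e0 : (V₁ none × V₂ none) ≃ₗ[k] V none)
    (hdim : ∀ i : I, Module.finrank k (V₁ (some i)) + Module.finrank k (V₂ (some i))
      = Module.finrank k (V (some i))) :
    Nat.card {p : Rep k Q V × Lie k V // dot p.2 p.1 = 0 ∧
        ∀ i, Module.finrank k (LinearMap.range ((p.2 i : Module.End k (V (some i))) ^ N))
          = Module.finrank k (V₁ (some i))} *
      (Nat.card (Gau k V₁) * Nat.card (Gau k V₂))
    = Nat.card (Gau k V) *
      Nat.card {p : Rep k Q (fun j => V₁ j × V₂ j) × Lie k (fun j => V₁ j × V₂ j) //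
        dot p.2 p.1 = 0 ∧ ∀ i, LinearMap.range ((p.2 i : Module.End k _) ^ N)
          = K1 k V₁ V₂ (some i) ∧ LinearMap.ker ((p.2 i : Module.End k _) ^ N)
          = K2 k V₁ V₂ (some i)} := by
  have hφ : ∀ i : I, Nonempty ((V₁ (some i) × V₂ (some i)) ≃ₗ[k] V (some i)) := fun i =>
    ⟨LinearEquiv.ofFinrankEq _ _ (by rw [Module.finrank_prod, hdim])⟩
  rw [← card_isoF (W := fun j => V₁ j × V₂ j) (fun i => (hφ i).some)]
  apply double_count
    (τ := fun φ : ∀ i : I, (V₁ (some i) × V₂ (some i)) ≃ₗ[k] V (some i) =>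
      pcE (Q := Q) (gx (W := fun j => V₁ j × V₂ j) e0 φ))
  · rintro ⟨x, ξ⟩ ⟨hmu, hfin⟩
    simp only at hmu hfin
    have hg : ∀ i : I, ∃ g : (V₁ (some i) × V₂ (some i)) ≃ₗ[k] V (some i),
        (K1 k V₁ V₂ (some i)).map g.toLinearMap
          = LinearMap.range ((ξ i : Module.End k (V (some i))) ^ N) ∧
        (K2 k V₁ V₂ (some i)).map g.toLinearMap
          = LinearMap.ker ((ξ i : Module.End k (V (some i))) ^ N) := by
      intro i
      have h1 := Submodule.finrank_add_eq_of_isCompl (isCompl_fit (ξ i) (hN i))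
      exact exists_adapted (A := V₁ (some i)) (B := V₂ (some i)) _ _
        (isCompl_fit (ξ i) (hN i)) (hfin i) (by
          have := hdim i
          have := hfin i
          omega)
    choose g hg1 hg2 using hg
    rw [← card_stab2 (k := k) (V₁ := V₁) (V₂ := V₂)]
    have key : ∀ φ : ∀ i : I, (V₁ (some i) × V₂ (some i)) ≃ₗ[k] V (some i),
        (dot ((pcE (Q := Q) (gx (W := fun j => V₁ j × V₂ j) e0 φ)).symm (x, ξ)).2
          ((pcE (Q := Q) (gx (W := fun j => V₁ j × V₂ j) e0 φ)).symm (x, ξ)).1 = 0 ∧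
        ∀ i, LinearMap.range ((((pcE (Q := Q) (gx (W := fun j => V₁ j × V₂ j) e0 φ)).symm
            (x, ξ)).2 i : Module.End k _) ^ N) = K1 k V₁ V₂ (some i) ∧
          LinearMap.ker ((((pcE (Q := Q) (gx (W := fun j => V₁ j × V₂ j) e0 φ)).symm
            (x, ξ)).2 i : Module.End k _) ^ N) = K2 k V₁ V₂ (some i)) ↔
        ∀ i, (K1 k V₁ V₂ (some i)).map (φ i).toLinearMap
            = LinearMap.range ((ξ i : Module.End k (V (some i))) ^ N) ∧
          (K2 k V₁ V₂ (some i)).map (φ i).toLinearMap
            = LinearMap.ker ((ξ i : Module.End k (V (some i))) ^ N) := by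
      intro φ
      rw [pcE_symm_apply]
      simp only
      constructor
      · rintro ⟨_, h⟩ i
        obtain ⟨h1, h2⟩ := h i
        have h1' := range_transport (fun j => (gx (W := fun j => V₁ j × V₂ j) e0 φ j).symm) ξ N i
        have h2' := ker_transport (fun j => (gx (W := fun j => V₁ j × V₂ j) e0 φ j).symm) ξ N i
        constructor
        · rw [← h1, h1']
          ext v
          simp
        · rw [← h2, h2']
          ext v
          simp
      · intro h
        refine ⟨(dot_eq_zero_transport _ x ξ).2 hmu, fun i => ⟨?_, ?_⟩⟩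
        · have h1' := range_transport (fun j => (gx (W := fun j => V₁ j × V₂ j) e0 φ j).symm) ξ N i
          rw [h1', ← (h i).1]
          ext v
          simp
        · have h2' := ker_transport (fun j => (gx (W := fun j => V₁ j × V₂ j) e0 φ j).symm) ξ N i
          rw [h2', ← (h i).2]
          ext v
          simp
    refine Nat.card_congr ?_
    exact
      { toFun := fun φ => ⟨fun i => (φ.1 i).trans (g i).symm, fun i => by
          have h1 := (key φ.1).1 φ.2 i
          constructor
          · rw [LinearEquiv.coe_trans, Submodule.map_comp, h1.1, ← hg1 i]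
            ext v; simp
          · rw [LinearEquiv.coe_trans, Submodule.map_comp, h1.2, ← hg2 i]
            ext v; simp⟩
        invFun := fun s => ⟨fun i => (s.1 i).trans (g i), by
          rw [key]
          intro i
          constructor
          · rw [LinearEquiv.coe_trans, Submodule.map_comp, (s.2 i).1, hg1 i]
          · rw [LinearEquiv.coe_trans, Submodule.map_comp, (s.2 i).2, hg2 i]⟩
        left_inv := fun φ => by
          apply Subtype.ext
          funext i
          ext v
          simp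
        right_inv := fun s => by
          apply Subtype.ext
          funext i
          ext v <;> simp }
  · rintro ⟨x, ξ⟩ hD φ ⟨h1, h2⟩
    apply hD
    rw [pcE_symm_apply] at h1 h2
    simp only at h1 h2
    refine ⟨(dot_eq_zero_transport _ x ξ).1 h1, fun i => ?_⟩
    have h3 := (h2 i).1
    have h1' := range_transport (fun j => (gx (W := fun j => V₁ j × V₂ j) e0 φ j).symm) ξ N i
    rw [h1'] at h3
    have h4 := congrArg (fun U : Submodule k (V₁ (some i) × V₂ (some i)) =>
      Module.finrank k U) h3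
    simp only [finrank_K1] at h4
    rw [← h4]
    exact (LinearEquiv.finrank_map_eq (φ i).symm _).symm

end Vale.Agent.P291.N3
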