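import Mathlib
import Vale.Agent.P291.H415.N3.Fit

/-!
# Fitting decomposition, standard position
-/

namespace Vale.Agent.P291.N3

set_option linter.unusedSectionVars false

open LinearMap

variable {k : Type*} [Field k]
variable {I E : Type*} [Fintype E] [Fintype I] {Q : Qv I E}
variable {V₁ V₂ : Option I → Type*} [∀ j, AddCommGroup (V₁ j)] [∀ j, Module k (V₁ j)]
  [∀ j, AddCommGroup (V₂ j)] [∀ j, Module k (V₂ j)]
  [∀ j, Module.Finite k (V₁ j)] [∀ j, Module.Finite k (V₂ j)]

/-- block diagonal representation -/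
def diagR (x₁ : Rep k Q V₁) (x₂ : Rep k Q V₂) : Rep k Q (fun j => V₁ j × V₂ j) :=
  fun a => LinearMap.prodMap (x₁ a) (x₂ a)

/-- block diagonal Lie algebra element -/
def diagL (ξ₁ : Lie k V₁) (ξ₂ : Lie k V₂) : Lie k (fun j => V₁ j × V₂ j) :=
  fun i => LinearMap.prodMap (ξ₁ i) (ξ₂ i)

theorem ex_diagL (ξ₁ : Lie k V₁) (ξ₂ : Lie k V₂) (j : Option I) :
    ex (diagL ξ₁ ξ₂) j = LinearMap.prodMap (ex ξ₁ j) (ex ξ₂ j) := by
  rcases j with _ | i
  · simp
  · rfl

theorem dot_diag (x₁ : Rep k Q V₁) (x₂ : Rep k Q V₂) (ξ₁ : Lie k V₁) (ξ₂ : Lie k V₂) :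
    dot (diagL ξ₁ ξ₂) (diagR x₁ x₂) = diagR (dot ξ₁ x₁) (dot ξ₂ x₂) := by
  funext a
  ext v <;> simp [dot, ex_diagL, diagR, diagL]

theorem diagR_eq_zero (x₁ : Rep k Q V₁) (x₂ : Rep k Q V₂) :
    diagR x₁ x₂ = 0 ↔ x₁ = 0 ∧ x₂ = 0 := by
  constructor
  · intro h
    have h1 : ∀ a v, diagR x₁ x₂ a v = 0 := by rw [h]; intros; rfl
    constructor
    · funext a; ext u
      exact congrArg Prod.fst (h1 a (u, 0))
    · funext a; ext u
      exact congrArg Prod.snd (h1 a (0, u))
  · rintro ⟨rfl, rfl⟩
    funext a; ext v <;> rfl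

theorem prodMap_pow' {A B : Type*} [AddCommGroup A] [Module k A] [AddCommGroup B] [Module k B]
    (f : Module.End k A) (g : Module.End k B) (n : ℕ) :
    (LinearMap.prodMap f g : Module.End k (A × B)) ^ n = LinearMap.prodMap (f ^ n) (g ^ n) := by
  induction n with
  | zero => ext v <;> simp
  | succ n ih =>
    rw [pow_succ, ih]
    ext v <;> simp [pow_succ]

theorem pow_injective {A : Type*} [AddCommGroup A] [Module k A] (f : Module.End k A)
    (hf : Function.Injective f) (n : ℕ) : Function.Injective (f ^ n) := by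
  induction n with
  | zero => exact fun _ _ h => h
  | succ n ih =>
    rw [pow_succ]
    exact ih.comp hf

theorem comp_pow {A A' : Type*} [AddCommGroup A] [Module k A] [AddCommGroup A'] [Module k A']
    (x : A →ₗ[k] A') (f : Module.End k A) (g : Module.End k A') (h : g ∘ₗ x = x ∘ₗ f) (n : ℕ)
    (v : A) : x ((f ^ n) v) = (g ^ n) (x v) := by
  induction n generalizing v with
  | zero => rfl
  | succ n ih =>
    rw [pow_succ, pow_succ, Module.End.mul_apply, ih, Module.End.mul_apply]
    have : g (x v) = x (f v) := LinearMap.congr_fun h v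
    rw [this]

variable [Finite k]

theorem fit_std (N : ℕ) (hN1 : N ≠ 0) [Subsingleton (V₁ none)]
    (hN : ∀ i : I, Module.finrank k (V₂ (some i)) ≤ N) :
    Nat.card {p : Rep k Q (fun j => V₁ j × V₂ j) × Lie k (fun j => V₁ j × V₂ j) //
        dot p.2 p.1 = 0 ∧ ∀ i, LinearMap.range ((p.2 i : Module.End k _) ^ N)
          = K1 k V₁ V₂ (some i) ∧ LinearMap.ker ((p.2 i : Module.End k _) ^ N)
          = K2 k V₁ V₂ (some i)}
      = Nat.card (ComInv k Q V₁) * Nat.card (ComNil k Q V₂) := by
  let f : ComInv k Q V₁ × ComNil k Q V₂ →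
      {p : Rep k Q (fun j => V₁ j × V₂ j) × Lie k (fun j => V₁ j × V₂ j) //
        dot p.2 p.1 = 0 ∧ ∀ i, LinearMap.range ((p.2 i : Module.End k _) ^ N)
          = K1 k V₁ V₂ (some i) ∧ LinearMap.ker ((p.2 i : Module.End k _) ^ N)
          = K2 k V₁ V₂ (some i)} := fun t =>
    ⟨(diagR t.1.1.1 t.2.1.1, diagL t.1.1.2 t.2.1.2), by
      obtain ⟨⟨⟨x₁, ξ₁⟩, h1, h2⟩, ⟨⟨x₂, ξ₂⟩, h3, h4⟩⟩ := t
      simp only at h1 h2 h3 h4 ⊢
      refine ⟨?_, fun i => ?_⟩
      · rw [dot_diag, h1, h3, diagR_eq_zero]; exact ⟨rfl, rfl⟩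
      · have e1 : (diagL ξ₁ ξ₂ i : Module.End k _) ^ N
            = LinearMap.prodMap ((ξ₁ i : Module.End k (V₁ (some i))) ^ N) 0 := by
          have : (ξ₂ i : Module.End k (V₂ (some i))) ^ N = 0 := (nilpotent_iff _ (hN i)).1 (h4 i)
          rw [← this]
          exact prodMap_pow' _ _ N
        have e2 : Function.Injective ((ξ₁ i : Module.End k (V₁ (some i))) ^ N) :=
          pow_injective _ (h2 i) N
        have e3 : Function.Surjective ((ξ₁ i : Module.End k (V₁ (some i))) ^ N) :=
          LinearMap.injective_iff_surjective.1 e2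
        rw [e1]
        constructor
        · ext v
          rw [mem_K1]
          constructor
          · rintro ⟨u, rfl⟩; rfl
          · intro hv
            obtain ⟨u, hu⟩ := e3 v.1
            refine ⟨(u, 0), ?_⟩
            apply Prod.ext
            · exact hu
            · exact hv.symm
        · ext v
          rw [mem_K2, LinearMap.mem_ker]
          constructor
          · intro h
            have h5 : ((ξ₁ i : Module.End k (V₁ (some i))) ^ N) v.1 = 0 := congrArg Prod.fst h
            apply e2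
            rw [h5, map_zero]
          · intro hv
            apply Prod.ext
            · show ((ξ₁ i : Module.End k (V₁ (some i))) ^ N) v.1 = 0
              rw [hv, map_zero]
            · rfl⟩
  have hf : Function.Bijective f := by
    constructor
    · rintro ⟨⟨⟨x₁, ξ₁⟩, h1⟩, ⟨⟨x₂, ξ₂⟩, h2⟩⟩ ⟨⟨⟨x₁', ξ₁'⟩, h1'⟩, ⟨⟨x₂', ξ₂'⟩, h2'⟩⟩ h
      have e1 : ∀ a v, diagR x₁ x₂ a v = diagR x₁' x₂' a v := by
        have : diagR x₁ x₂ = diagR x₁' x₂' := congrArg (fun p => p.1.1) h
        rw [this]; intros; rfl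
      have e2 : ∀ a v, diagL ξ₁ ξ₂ a v = diagL ξ₁' ξ₂' a v := by
        have : diagL ξ₁ ξ₂ = diagL ξ₁' ξ₂' := congrArg (fun p => p.1.2) h
        rw [this]; intros; rfl
      have a1 : x₁ = x₁' := by funext a; ext u; exact congrArg Prod.fst (e1 a (u, 0))
      have a2 : x₂ = x₂' := by funext a; ext u; exact congrArg Prod.snd (e1 a (0, u))
      have a3 : ξ₁ = ξ₁' := by funext a; ext u; exact congrArg Prod.fst (e2 a (u, 0))
      have a4 : ξ₂ = ξ₂' := by funext a; ext u; exact congrArg Prod.snd (e2 a (0, u))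
      subst a1 a2 a3 a4
      rfl
    · rintro ⟨⟨x, ξ⟩, h1, h2⟩
      simp only at h1 h2
      -- `ξ` preserves both summands
      have hξ1 : ∀ i, ∀ u : V₁ (some i), (ξ i (u, 0)).2 = 0 := by
        intro i u
        have hu : ((u, 0) : V₁ (some i) × V₂ (some i)) ∈
            LinearMap.range ((ξ i : Module.End k _) ^ N) := by
          rw [(h2 i).1, mem_K1]
        obtain ⟨w, hw⟩ := hu
        rw [← hw]
        have : ξ i (((ξ i : Module.End k _) ^ N) w) ∈
            LinearMap.range ((ξ i : Module.End k _) ^ N) := by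
          refine ⟨ξ i w, ?_⟩
          rw [← Module.End.mul_apply, ← Module.End.mul_apply, ← pow_succ, ← pow_succ']
        rwa [(h2 i).1, mem_K1] at this
      have hξ2 : ∀ i, ∀ u : V₂ (some i), (ξ i (0, u)).1 = 0 := by
        intro i u
        have hu : ((0, u) : V₁ (some i) × V₂ (some i)) ∈
            LinearMap.ker ((ξ i : Module.End k _) ^ N) := by
          rw [(h2 i).2, mem_K2]
        have : ξ i (0, u) ∈ LinearMap.ker ((ξ i : Module.End k _) ^ N) := by
          rw [LinearMap.mem_ker] at hu ⊢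
          rw [← Module.End.mul_apply, ← pow_succ, pow_succ', Module.End.mul_apply, hu, map_zero]
        rwa [(h2 i).2, mem_K2] at this
      have hcomm : ∀ a, ex ξ (Q.tgt a) ∘ₗ x a = x a ∘ₗ ξ (Q.src a) := by
        intro a
        have := congrFun h1 a
        simp only [dot, Pi.zero_apply] at this
        exact sub_eq_zero.1 this
      have hx1 : ∀ a, ∀ u : V₁ (some (Q.src a)), (x a (u, 0)).2 = 0 := by
        intro a u
        have hu : ((u, 0) : V₁ (some (Q.src a)) × V₂ (some (Q.src a))) ∈
            LinearMap.range ((ξ (Q.src a) : Module.End k _) ^ N) := by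
          rw [(h2 _).1, mem_K1]
        obtain ⟨w, hw⟩ := hu
        have h3 := comp_pow (x a) (ξ (Q.src a)) (ex ξ (Q.tgt a)) (hcomm a) N w
        rw [← hw, h3]
        have h4 : ∀ (j : Option I) (w : V₁ j × V₂ j),
            (((ex ξ j : Module.End k (V₁ j × V₂ j)) ^ N) w).2 = 0 := by
          rintro (_ | i) w
          · rw [ex_none, zero_pow hN1]; rfl
          · have : ((ex ξ (some i) : Module.End k (V₁ (some i) × V₂ (some i))) ^ N) w ∈
                LinearMap.range ((ξ i : Module.End k _) ^ N) := ⟨w, rfl⟩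
            rwa [(h2 i).1, mem_K1] at this
        exact h4 _ _
      have hx2 : ∀ a, ∀ u : V₂ (some (Q.src a)), (x a (0, u)).1 = 0 := by
        intro a u
        have hu : ((0, u) : V₁ (some (Q.src a)) × V₂ (some (Q.src a))) ∈
            LinearMap.ker ((ξ (Q.src a) : Module.End k _) ^ N) := by
          rw [(h2 _).2, mem_K2]
        rw [LinearMap.mem_ker] at hu
        have h3 := comp_pow (x a) (ξ (Q.src a)) (ex ξ (Q.tgt a)) (hcomm a) N (0, u)
        rw [hu, map_zero] at h3
        have h4 : ∀ (j : Option I) (w : V₁ j × V₂ j),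
            0 = ((ex ξ j : Module.End k (V₁ j × V₂ j)) ^ N) w → w.1 = 0 := by
          rintro (_ | i) w hw
          · exact Subsingleton.elim _ _
          · have : w ∈ LinearMap.ker ((ξ i : Module.End k _) ^ N) := by
              rw [LinearMap.mem_ker]; exact hw.symm
            rwa [(h2 i).2, mem_K2] at this
        exact h4 _ _ h3
      let x₁ : Rep k Q V₁ := fun a => fst k _ _ ∘ₗ x a ∘ₗ inl k _ _
      let x₂ : Rep k Q V₂ := fun a => snd k _ _ ∘ₗ x a ∘ₗ inr k _ _
      let ξ₁ : Lie k V₁ := fun i => fst k _ _ ∘ₗ ξ i ∘ₗ inl k _ _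
      let ξ₂ : Lie k V₂ := fun i => snd k _ _ ∘ₗ ξ i ∘ₗ inr k _ _
      have ex' : x = diagR x₁ x₂ := by
        funext a
        apply LinearMap.ext
        rintro ⟨u, v⟩
        have h3 : x a (u, v) = x a (u, 0) + x a (0, v) := by rw [← map_add]; simp
        rw [h3]
        apply Prod.ext
        · show (x a (u, 0)).1 + (x a (0, v)).1 = (x a (u, 0)).1
          rw [hx2, add_zero]
        · show (x a (u, 0)).2 + (x a (0, v)).2 = (x a (0, v)).2
          rw [hx1, zero_add]
      have eξ' : ξ = diagL ξ₁ ξ₂ := by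
        funext a
        apply LinearMap.ext
        rintro ⟨u, v⟩
        have h3 : ξ a (u, v) = ξ a (u, 0) + ξ a (0, v) := by rw [← map_add]; simp
        rw [h3]
        apply Prod.ext
        · show (ξ a (u, 0)).1 + (ξ a (0, v)).1 = (ξ a (u, 0)).1
          rw [hξ2, add_zero]
        · show (ξ a (u, 0)).2 + (ξ a (0, v)).2 = (ξ a (0, v)).2
          rw [hξ1, zero_add]
      have h1' := h1
      rw [ex', eξ', dot_diag, diagR_eq_zero] at h1'
      have h5 : ∀ i, Function.Injective (ξ₁ i) := by
        intro i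
        rw [injective_iff_map_eq_zero]
        intro u hu
        have h6 : ξ i (u, 0) = 0 := by
          apply Prod.ext
          · exact hu
          · exact hξ1 i u
        have h7 : ((u, 0) : V₁ (some i) × V₂ (some i)) ∈
            LinearMap.ker ((ξ i : Module.End k _) ^ N) := by
          rw [LinearMap.mem_ker]
          obtain ⟨M, rfl⟩ := Nat.exists_eq_succ_of_ne_zero hN1
          rw [pow_succ, Module.End.mul_apply, h6, map_zero]
        rw [(h2 i).2, mem_K2] at h7
        exact h7
      have h6 : ∀ i, IsNilpotent (ξ₂ i : Module.End k (V₂ (some i))) := by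
        intro i
        refine ⟨N, ?_⟩
        have h7 := (h2 i).2
        have e1 : (ξ i : Module.End k (V₁ (some i) × V₂ (some i))) ^ N
            = LinearMap.prodMap ((ξ₁ i : Module.End k (V₁ (some i))) ^ N)
              ((ξ₂ i : Module.End k (V₂ (some i))) ^ N) := by
          rw [← prodMap_pow']
          congr 1
          exact congrFun eξ' i
        ext u
        have h8 : ((0, u) : V₁ (some i) × V₂ (some i)) ∈
            LinearMap.ker ((ξ i : Module.End k _) ^ N) := by
          rw [h7, mem_K2]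
        rw [LinearMap.mem_ker, e1] at h8
        exact congrArg Prod.snd h8
      refine ⟨(⟨(x₁, ξ₁), h1'.1, h5⟩, ⟨(x₂, ξ₂), h1'.2, h6⟩), ?_⟩
      apply Subtype.ext
      exact (Prod.ext ex' eξ').symm
  rw [← Nat.card_congr (Equiv.ofBijective f hf), Nat.card_prod]

end Vale.Agent.P291.N3
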