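import Mathlib
import Vale.Agent.P291.H415.N3.Fit2

/-!
# Rational numbers and the two recursions
-/

namespace Vale.Agent.P291.N3

set_option linter.unusedSectionVars false

open LinearMap

variable {k : Type*} [Field k] [Finite k]
variable {I E : Type*} [Fintype E] [Fintype I] {Q : Qv I E}

section general

variable {V₁ V₂ V : Option I → Type*} [∀ j, AddCommGroup (V₁ j)] [∀ j, Module k (V₁ j)]
  [∀ j, AddCommGroup (V₂ j)] [∀ j, Module k (V₂ j)]
  [∀ j, AddCommGroup (V j)] [∀ j, Module k (V j)]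
  [∀ j, Module.Finite k (V₁ j)] [∀ j, Module.Finite k (V₂ j)] [∀ j, Module.Finite k (V j)]

theorem card_rep : Nat.card (Rep k Q V) = Nat.card k ^ (∑ a : E,
    Module.finrank k (V (some (Q.src a))) * Module.finrank k (V (Q.tgt a))) := by
  rw [Module.natCard_eq_pow_finrank (K := k) (V := Rep k Q V), Module.finrank_pi_fintype]
  congr 1
  exact Finset.sum_congr rfl fun a _ => Module.finrank_linearMap _ _ _ _

theorem card_red : Nat.card (Red k Q V) = Nat.card (Rep k Q V) := by
  rw [card_rep, Module.natCard_eq_pow_finrank (K := k) (V := Red k Q V), Module.finrank_pi_fintype]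
  congr 1
  refine Finset.sum_congr rfl fun a _ => ?_
  rw [Module.finrank_linearMap, mul_comm]

theorem card_lie : Nat.card (Lie k V) = Nat.card k ^ (∑ i : I,
    Module.finrank k (V (some i)) * Module.finrank k (V (some i))) := by
  rw [Module.natCard_eq_pow_finrank (K := k) (V := Lie k V), Module.finrank_pi_fintype]
  congr 1
  exact Finset.sum_congr rfl fun a _ => Module.finrank_linearMap _ _ _ _

theorem card_psi : Nat.card (Psi k V₁ V₂) = Nat.card k ^ (∑ i : I,
    Module.finrank k (V₁ (some i)) * Module.finrank k (V₂ (some i))) := by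
  rw [Module.natCard_eq_pow_finrank (K := k) (V := Psi k V₁ V₂), Module.finrank_pi_fintype]
  congr 1
  exact Finset.sum_congr rfl fun a _ => Module.finrank_linearMap _ _ _ _

theorem card_offS : Nat.card (Off k Q V₁ V₂) = Nat.card k ^ ((∑ a : E,
    Module.finrank k (V₂ (some (Q.src a))) * Module.finrank k (V₁ (Q.tgt a))) +
    ∑ a : E, Module.finrank k (V₂ (Q.tgt a)) * Module.finrank k (V₁ (some (Q.src a)))) := by
  rw [Module.natCard_eq_pow_finrank (K := k) (V := Off k Q V₁ V₂), Module.finrank_prod,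
    Module.finrank_pi_fintype, Module.finrank_pi_fintype]
  congr 2
  · exact Finset.sum_congr rfl fun a _ => Module.finrank_linearMap _ _ _ _
  · exact Finset.sum_congr rfl fun a _ => Module.finrank_linearMap _ _ _ _

theorem card_rep_split (hd : ∀ j : Option I, Module.finrank k (V₁ j) + Module.finrank k (V₂ j)
    = Module.finrank k (V j)) :
    Nat.card (Rep k Q V) = Nat.card (Rep k Q V₁) * Nat.card (Rep k Q V₂)
      * Nat.card (Off k Q V₁ V₂) := by
  rw [card_rep, card_rep, card_rep, card_offS, ← pow_add, ← pow_add]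
  congr 1
  simp only [← hd, ← Finset.sum_add_distrib]
  refine Finset.sum_congr rfl fun a _ => ?_
  ring

theorem card_lie_split (hd : ∀ j : Option I, Module.finrank k (V₁ j) + Module.finrank k (V₂ j)
    = Module.finrank k (V j)) :
    Nat.card (Lie k V) = Nat.card (Lie k V₁) * Nat.card (Lie k V₂)
      * (Nat.card (Psi k V₁ V₂) * Nat.card (Psi k V₂ V₁)) := by
  rw [card_lie, card_lie, card_lie, card_psi, card_psi, ← pow_add, ← pow_add, ← pow_add]
  congr 1
  simp only [← hd, ← Finset.sum_add_distrib]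
  refine Finset.sum_congr rfl fun a _ => ?_
  ring

theorem card_pos' (A : Type*) [AddCommGroup A] [Module k A] [Module.Finite k A] :
    (Nat.card A : ℚ) ≠ 0 := by
  have : Finite A := Module.finite_of_finite k
  exact_mod_cast Nat.card_pos.ne'

theorem card_gau_ne : (Nat.card (Gau k V) : ℚ) ≠ 0 := by
  have : Nonempty (Gau k V) := ⟨fun i => LinearEquiv.refl k _⟩
  exact_mod_cast Nat.card_pos.ne'

variable (k Q V) in
/-- number of zeros of the moment map, normalised -/
noncomputable def pz : ℚ := (Nat.card (ZZ k Q V) * Nat.card (Lie k V)) /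
  (Nat.card (Rep k Q V) * Nat.card (Gau k V))

variable (k Q V) in
/-- number of stable zeros of the moment map, normalised -/
noncomputable def sz : ℚ := (Nat.card (ST k Q V) * Nat.card (Lie k V)) /
  (Nat.card (Rep k Q V) * Nat.card (Gau k V))

variable (k Q V) in
/-- number of pairs with nilpotent `ξ` -/
noncomputable def nz : ℚ := Nat.card (ComNil k Q V) / Nat.card (Gau k V)

variable (k Q V) in
/-- number of pairs with invertible `ξ` -/
noncomputable def iz : ℚ := Nat.card (ComInv k Q V) / Nat.card (Gau k V)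

theorem pz_eq : pz k Q V = Nat.card (Com k Q V) / Nat.card (Gau k V) := by
  have h := card_muZero (k := k) (Q := Q) (V := V)
  rw [card_red] at h
  have h' : (Nat.card (ZZ k Q V) * Nat.card (Lie k V) : ℚ)
      = Nat.card (Com k Q V) * Nat.card (Rep k Q V) := by exact_mod_cast h
  unfold pz
  rw [h']
  have h1 : (Nat.card (Rep k Q V) : ℚ) ≠ 0 := card_pos' (k := k) _
  have h2 : (Nat.card (Gau k V) : ℚ) ≠ 0 := card_gau_ne
  field_simp

theorem hn_rat [Subsingleton (V₁ none)] (e0 : (V₁ none × V₂ none) ≃ₗ[k] V none)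
    (hd : ∀ j : Option I, Module.finrank k (V₁ j) + Module.finrank k (V₂ j)
    = Module.finrank k (V j)) :
    (Nat.card {p : Rep k Q V × Red k Q V // MuZero p.1 p.2 ∧
        ∀ i, Module.finrank k (umax p.1 p.2 (some i)) = Module.finrank k (V₁ (some i))} : ℚ)
      * (Nat.card (Lie k V) / (Nat.card (Rep k Q V) * Nat.card (Gau k V)))
    = pz k Q V₁ * sz k Q V₂ := by
  have h1 := hn_count (Q := Q) (V₁ := V₁) (V₂ := V₂) (V := V) e0 (fun i => hd (some i))
  have h2 := card_std (k := k) (Q := Q) (V₁ := V₁) (V₂ := V₂)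
  have h3 := card_rep_split (Q := Q) hd
  have h4 := card_lie_split hd
  have h1' : (Nat.card {p : Rep k Q V × Red k Q V // MuZero p.1 p.2 ∧
        ∀ i, Module.finrank k (umax p.1 p.2 (some i)) = Module.finrank k (V₁ (some i))} : ℚ) *
      (Nat.card (Gau k V₁) * Nat.card (Gau k V₂) * Nat.card (Psi k V₂ V₁))
    = Nat.card (Gau k V) *
      Nat.card {p : Rep k Q (fun j => V₁ j × V₂ j) × Red k Q (fun j => V₁ j × V₂ j) //
        MuZero p.1 p.2 ∧ ∀ j, umax p.1 p.2 j = K1 k V₁ V₂ j} := by exact_mod_cast h1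
  have h2' : (Nat.card {p : Rep k Q (fun j => V₁ j × V₂ j) × Red k Q (fun j => V₁ j × V₂ j) //
        MuZero p.1 p.2 ∧ ∀ j, umax p.1 p.2 j = K1 k V₁ V₂ j} : ℚ) * Nat.card (Psi k V₁ V₂)
      = Nat.card (ZZ k Q V₁) * Nat.card (ST k Q V₂) * Nat.card (Off k Q V₁ V₂) := by
    exact_mod_cast h2
  have h3' : (Nat.card (Rep k Q V) : ℚ) = Nat.card (Rep k Q V₁) * Nat.card (Rep k Q V₂)
      * Nat.card (Off k Q V₁ V₂) := by exact_mod_cast h3
  have h4' : (Nat.card (Lie k V) : ℚ) = Nat.card (Lie k V₁) * Nat.card (Lie k V₂)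
      * (Nat.card (Psi k V₁ V₂) * Nat.card (Psi k V₂ V₁)) := by exact_mod_cast h4
  unfold pz sz
  rw [h3', h4']
  have g1 : (Nat.card (Rep k Q V₁) : ℚ) ≠ 0 := card_pos' (k := k) _
  have g2 : (Nat.card (Rep k Q V₂) : ℚ) ≠ 0 := card_pos' (k := k) _
  have g3 : (Nat.card (Off k Q V₁ V₂) : ℚ) ≠ 0 := card_pos' (k := k) _
  have g4 : (Nat.card (Psi k V₁ V₂) : ℚ) ≠ 0 := card_pos' (k := k) _
  have g5 : (Nat.card (Psi k V₂ V₁) : ℚ) ≠ 0 := card_pos' (k := k) _
  have g6 : (Nat.card (Gau k V₁) : ℚ) ≠ 0 := card_gau_ne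
  have g7 : (Nat.card (Gau k V₂) : ℚ) ≠ 0 := card_gau_ne
  have g8 : (Nat.card (Gau k V) : ℚ) ≠ 0 := card_gau_ne
  generalize (Nat.card {p : Rep k Q V × Red k Q V // MuZero p.1 p.2 ∧
        ∀ i, Module.finrank k (umax p.1 p.2 (some i)) = Module.finrank k (V₁ (some i))} : ℚ) = x
    at h1' ⊢
  generalize (Nat.card {p : Rep k Q (fun j => V₁ j × V₂ j) × Red k Q (fun j => V₁ j × V₂ j) //
        MuZero p.1 p.2 ∧ ∀ j, umax p.1 p.2 j = K1 k V₁ V₂ j} : ℚ) = y at h1' h2'
  have hy : y = Nat.card (ZZ k Q V₁) * Nat.card (ST k Q V₂) * Nat.card (Off k Q V₁ V₂)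
      / Nat.card (Psi k V₁ V₂) := by
    rw [eq_div_iff g4]; exact h2'
  have hx : x = Nat.card (Gau k V) * y / (Nat.card (Gau k V₁) * Nat.card (Gau k V₂)
      * Nat.card (Psi k V₂ V₁)) := by
    rw [eq_div_iff (mul_ne_zero (mul_ne_zero g6 g7) g5)]; exact h1'
  rw [hx, hy]
  field_simp

theorem fit_rat (N : ℕ) (hN1 : N ≠ 0) (hN : ∀ i : I, Module.finrank k (V (some i)) ≤ N)
    [Subsingleton (V₁ none)] (e0 : (V₁ none × V₂ none) ≃ₗ[k] V none)
    (hd : ∀ j : Option I, Module.finrank k (V₁ j) + Module.finrank k (V₂ j)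
    = Module.finrank k (V j)) :
    (Nat.card {p : Rep k Q V × Lie k V // dot p.2 p.1 = 0 ∧
        ∀ i, Module.finrank k (LinearMap.range ((p.2 i : Module.End k (V (some i))) ^ N))
          = Module.finrank k (V₁ (some i))} : ℚ) / Nat.card (Gau k V)
    = iz k Q V₁ * nz k Q V₂ := by
  have h1 := fit_count (Q := Q) (V₁ := V₁) (V₂ := V₂) (V := V) N hN e0 (fun i => hd (some i))
  have h2 := fit_std (k := k) (Q := Q) (V₁ := V₁) (V₂ := V₂) N hN1 (fun i => by
    have := hN i
    have := hd (some i)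
    omega)
  rw [h2] at h1
  have h1' : (Nat.card {p : Rep k Q V × Lie k V // dot p.2 p.1 = 0 ∧
        ∀ i, Module.finrank k (LinearMap.range ((p.2 i : Module.End k (V (some i))) ^ N))
          = Module.finrank k (V₁ (some i))} : ℚ) *
      (Nat.card (Gau k V₁) * Nat.card (Gau k V₂))
    = Nat.card (Gau k V) * (Nat.card (ComInv k Q V₁) * Nat.card (ComNil k Q V₂)) := by
    exact_mod_cast h1
  unfold iz nz
  have g6 : (Nat.card (Gau k V₁) : ℚ) ≠ 0 := card_gau_ne
  have g7 : (Nat.card (Gau k V₂) : ℚ) ≠ 0 := card_gau_ne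
  have g8 : (Nat.card (Gau k V) : ℚ) ≠ 0 := card_gau_ne
  rw [div_mul_div_comm, div_eq_div_iff g8 (mul_ne_zero g6 g7), h1']
  ring

end general

end Vale.Agent.P291.N3
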