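import Mathlib
import Vale.Agent.P291.H415.N3.Num

/-!
# The recursion for the number of points of quiver varieties

For a dimension vector `v` and framing dimension `w` (of each framing line)
`nil v w = #{(x,ξ) | ξ nilpotent, ξ x = 0} / |G|` satisfies
`nil v w = ∑_{n ≤ v} nil n 0 * s (v-n) w` with
`s v w = #{stable points of μ⁻¹(0)} |𝔤| / (|N| |G|)`.
-/

namespace Vale.Agent.P291.N3

set_option linter.unusedSectionVars false

open LinearMap

variable {k : Type*} [Field k] [Finite k]
variable {I E : Type*} [Fintype E] [Fintype I] [DecidableEq I] {Q : Qv I E}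

/-- dimensions: `w` at the framing vertex -/
def dm (v : I →₀ ℕ) (w : ℕ) : Option I → ℕ
  | none => w
  | some i => v i

variable (k) in
/-- standard spaces -/
abbrev FV (v : I →₀ ℕ) (w : ℕ) (j : Option I) : Type _ := Fin (dm v w j) → k

theorem finrank_FV (v : I →₀ ℕ) (w : ℕ) (j : Option I) :
    Module.finrank k (FV k v w j) = dm v w j := by
  simp

instance (v : I →₀ ℕ) : Subsingleton (FV k v 0 none) := by
  show Subsingleton (Fin 0 → k)
  infer_instance

theorem card_eq_sum_antidiagonal {Z : Type*} [Finite Z] (v : I →₀ ℕ) (n : Z → I → ℕ)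
    (hn : ∀ z i, n z i ≤ v i) :
    Nat.card Z = ∑ p ∈ Finset.HasAntidiagonal.antidiagonal v, Nat.card {z // ∀ i, n z i = p.1 i} := by
  classical
  have : Fintype Z := Fintype.ofFinite _
  let N : Z → (I →₀ ℕ) := fun z => Finsupp.equivFunOnFinite.symm (n z)
  have hN : ∀ z i, N z i = n z i := fun z i => rfl
  rw [Nat.card_eq_fintype_card, ← Finset.card_univ,
    Finset.card_eq_sum_card_fiberwise (f := fun z => (N z, v - N z))
      (t := Finset.HasAntidiagonal.antidiagonal v)]
  · refine Finset.sum_congr rfl fun p hp => ?_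
    rw [Finset.HasAntidiagonal.mem_antidiagonal] at hp
    rw [Nat.card_eq_fintype_card, Fintype.card_subtype]
    congr 1
    ext z
    simp only [Finset.mem_filter, Finset.mem_univ, true_and]
    constructor
    · intro h i
      rw [← hN, ← h]
    · intro h
      have h1 : N z = p.1 := by
        ext i; rw [hN, h]
      have h2 : v - N z = p.2 := by
        rw [h1, ← hp, add_tsub_cancel_left]
      exact Prod.ext h1 h2
  · intro z _
    rw [Finset.mem_coe, Finset.HasAntidiagonal.mem_antidiagonal]
    ext i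
    simp only [Finsupp.coe_add, Finsupp.coe_tsub, Pi.add_apply, Pi.sub_apply, hN]
    have := hn z i
    omega

/-- the framing isomorphism -/
def e0 (n m v : I →₀ ℕ) (w : ℕ) : (FV k n 0 none × FV k m w none) ≃ₗ[k] FV k v w none where
  toFun p := p.2
  invFun u := (0, u)
  left_inv := by
    rintro ⟨a, b⟩
    exact Prod.ext (Subsingleton.elim _ _) rfl
  right_inv := fun _ => rfl
  map_add' := fun _ _ => rfl
  map_smul' := fun _ _ => rfl

theorem hd (n m v : I →₀ ℕ) (w : ℕ) (h : n + m = v) (j : Option I) :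
    Module.finrank k (FV k n 0 j) + Module.finrank k (FV k m w j)
      = Module.finrank k (FV k v w j) := by
  simp only [finrank_FV]
  rcases j with _ | i
  · show 0 + w = w
    omega
  · show n i + m i = v i
    rw [← h]; rfl

theorem pz_rec (v : I →₀ ℕ) (w : ℕ) :
    pz k Q (FV k v w) = ∑ p ∈ Finset.HasAntidiagonal.antidiagonal v,
      pz k Q (FV k p.1 0) * sz k Q (FV k p.2 w) := by
  have h1 := card_eq_sum_antidiagonal (Z := ZZ k Q (FV k v w)) v
    (fun z i => Module.finrank k (umax z.1.1 z.1.2 (some i)))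
    (fun z i => (Submodule.finrank_le _).trans (le_of_eq (finrank_FV v w (some i))))
  have h2 : pz k Q (FV k v w) = (Nat.card (ZZ k Q (FV k v w)) : ℚ) *
      (Nat.card (Lie k (FV k v w)) / (Nat.card (Rep k Q (FV k v w)) *
        Nat.card (Gau k (FV k v w)))) := by
    unfold pz; ring
  rw [h2, h1, Nat.cast_sum, Finset.sum_mul]
  refine Finset.sum_congr rfl fun p hp => ?_
  rw [Finset.HasAntidiagonal.mem_antidiagonal] at hp
  have h3 := hn_rat (k := k) (Q := Q) (V₁ := FV k p.1 0) (V₂ := FV k p.2 w) (V := FV k v w)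
    (e0 p.1 p.2 v w) (hd p.1 p.2 v w hp)
  rw [← h3]
  congr 2
  refine Nat.card_congr ((Equiv.subtypeSubtypeEquivSubtypeInter
    (fun z : Rep k Q (FV k v w) × Red k Q (FV k v w) => MuZero z.1 z.2)
    (fun z => ∀ i, Module.finrank k (umax z.1 z.2 (some i)) = p.1 i)).trans ?_)
  refine Equiv.subtypeEquivRight fun z => ?_
  have : ∀ i, Module.finrank k (FV k p.1 0 (some i)) = p.1 i := fun i => finrank_FV _ _ _
  simp only [this]

theorem pz_fit (v : I →₀ ℕ) (w : ℕ) :
    pz k Q (FV k v w) = ∑ p ∈ Finset.HasAntidiagonal.antidiagonal v,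
      iz k Q (FV k p.1 0) * nz k Q (FV k p.2 w) := by
  let N : ℕ := (∑ i, v i) + 1
  have hN1 : N ≠ 0 := Nat.succ_ne_zero _
  have hN : ∀ i : I, Module.finrank k (FV k v w (some i)) ≤ N := by
    intro i
    rw [finrank_FV]
    show v i ≤ _
    have := Finset.single_le_sum (f := fun i => v i) (fun i _ => Nat.zero_le _) (Finset.mem_univ i)
    omega
  have h1 := card_eq_sum_antidiagonal (Z := Com k Q (FV k v w)) v
    (fun z i => Module.finrank k (LinearMap.range
      ((z.1.2 i : Module.End k (FV k v w (some i))) ^ N)))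
    (fun z i => (Submodule.finrank_le _).trans (le_of_eq (finrank_FV v w (some i))))
  rw [pz_eq, h1, Nat.cast_sum, Finset.sum_div]
  refine Finset.sum_congr rfl fun p hp => ?_
  rw [Finset.HasAntidiagonal.mem_antidiagonal] at hp
  have h3 := fit_rat (k := k) (Q := Q) (V₁ := FV k p.1 0) (V₂ := FV k p.2 w) (V := FV k v w)
    N hN1 hN (e0 p.1 p.2 v w) (hd p.1 p.2 v w hp)
  rw [← h3]
  congr 2
  refine Nat.card_congr ((Equiv.subtypeSubtypeEquivSubtypeInter
    (fun z : Rep k Q (FV k v w) × Lie k (FV k v w) => dot z.2 z.1 = 0)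
    (fun z => ∀ i, Module.finrank k (LinearMap.range
      ((z.2 i : Module.End k (FV k v w (some i))) ^ N)) = p.1 i)).trans ?_)
  refine Equiv.subtypeEquivRight fun z => ?_
  have : ∀ i, Module.finrank k (FV k p.1 0 (some i)) = p.1 i := fun i => finrank_FV _ _ _
  simp only [this]

theorem iz_zero : iz k Q (FV k (0 : I →₀ ℕ) 0) = 1 := by
  have hs : ∀ i : I, Subsingleton (FV k (0 : I →₀ ℕ) 0 (some i)) := fun i => by
    show Subsingleton (Fin 0 → k)
    infer_instance
  have h1 : Nat.card (ComInv k Q (FV k (0 : I →₀ ℕ) 0)) = 1 := by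
    have : Unique (ComInv k Q (FV k (0 : I →₀ ℕ) 0)) := by
      refine ⟨⟨⟨(0, 0), ?_, ?_⟩⟩, ?_⟩
      · funext a
        apply LinearMap.ext
        intro v
        have := hs (Q.src a)
        have h0 : v = 0 := Subsingleton.elim _ _
        rw [h0, map_zero, map_zero]
      · intro i u v _
        have := hs i
        exact Subsingleton.elim _ _
      · rintro ⟨⟨x, ξ⟩, h⟩
        apply Subtype.ext
        apply Prod.ext
        · funext a
          apply LinearMap.ext
          intro v
          have := hs (Q.src a)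
          have h0 : v = 0 := Subsingleton.elim _ _
          rw [h0, map_zero, map_zero]
        · funext i
          apply LinearMap.ext
          intro v
          have := hs i
          exact Subsingleton.elim _ _
    exact Nat.card_unique
  have h2 : Nat.card (Gau k (FV k (0 : I →₀ ℕ) 0)) = 1 := by
    have : Unique (Gau k (FV k (0 : I →₀ ℕ) 0)) := by
      refine ⟨⟨fun i => LinearEquiv.refl k _⟩, ?_⟩
      intro g
      funext i
      apply LinearEquiv.ext
      intro v
      have := hs i
      exact Subsingleton.elim _ _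
    exact Nat.card_unique
  unfold iz
  rw [h1, h2]
  norm_num

/-- **The recursion.** -/
theorem nz_rec (v : I →₀ ℕ) (w : ℕ) :
    nz k Q (FV k v w) = ∑ p ∈ Finset.HasAntidiagonal.antidiagonal v,
      nz k Q (FV k p.1 0) * sz k Q (FV k p.2 w) := by
  classical
  let F : ℕ → MvPowerSeries I ℚ := fun w v => pz k Q (FV k v w)
  let S : ℕ → MvPowerSeries I ℚ := fun w v => sz k Q (FV k v w)
  let Nl : ℕ → MvPowerSeries I ℚ := fun w v => nz k Q (FV k v w)
  let J : MvPowerSeries I ℚ := fun v => iz k Q (FV k v 0)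
  have c1 : ∀ w v, MvPowerSeries.coeff v (F w) = pz k Q (FV k v w) := fun _ _ => rfl
  have c2 : ∀ w v, MvPowerSeries.coeff v (S w) = sz k Q (FV k v w) := fun _ _ => rfl
  have c3 : ∀ w v, MvPowerSeries.coeff v (Nl w) = nz k Q (FV k v w) := fun _ _ => rfl
  have c4 : ∀ v, MvPowerSeries.coeff v J = iz k Q (FV k v 0) := fun _ => rfl
  have h1 : ∀ w, F w = F 0 * S w := by
    intro w
    ext v
    rw [MvPowerSeries.coeff_mul, c1, pz_rec]
    rfl
  have h2 : ∀ w, F w = J * Nl w := by
    intro w
    ext v
    rw [MvPowerSeries.coeff_mul, c1, pz_fit]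
    rfl
  have hJ : J ≠ 0 := by
    intro h
    have h3 : MvPowerSeries.coeff (0 : I →₀ ℕ) J = 0 := by rw [h]; simp
    rw [c4, iz_zero] at h3
    exact one_ne_zero h3
  have h3 : Nl w = Nl 0 * S w := by
    apply mul_left_cancel₀ hJ
    rw [← mul_assoc, ← h2, ← h2, h1]
  have h4 := congrArg (MvPowerSeries.coeff v) h3
  rw [MvPowerSeries.coeff_mul, c3] at h4
  exact h4

end Vale.Agent.P291.N3
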